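import Vale.Agent.P237.Small.N5W6.Scalar
import Vale.Agent.P237.Cal.BoxVertex2
import Vale.Agent.P237.Cal.PackTabs
import Vale.Agent.P237.Cal.VFamEq
import Vale.Agent.P237.Cal.FastCell

/-!
# P237: data of one checked box
-/

open Vale.Agent.P237.Cal AtomCert CellCert FamAtoms StateTable CellEnds BoxHand BoxEnds CellGlue2 BoxVertex PackGlue2 HeadSplit TailRed

set_option linter.all false

namespace Vale.Agent.P237.Small.N5W6

/-- Data. -/
noncomputable def z52 : Fn := ([nat_lit 0, nat_lit 0, nat_lit 0, nat_lit 0, nat_lit 0, nat_lit 0, nat_lit 0, nat_lit 0, nat_lit 0, nat_lit 0, nat_lit 0, nat_lit 0, nat_lit 0, nat_lit 0, nat_lit 0, nat_lit 0, nat_lit 0, nat_lit 0, nat_lit 0, nat_lit 0, nat_lit 0, nat_lit 0, nat_lit 0, nat_lit 0, nat_lit 0, nat_lit 0, nat_lit 0, nat_lit 0, nat_lit 0, nat_lit 0, nat_lit 0, nat_lit 0, nat_lit 0, nat_lit 0, nat_lit 0, nat_lit 0, nat_lit 0, nat_lit 0, nat_lit 0, nat_lit 0, nat_lit 0, nat_lit 0, nat_lit 0, nat_lit 0, nat_lit 0, nat_lit 0, nat_lit 0, nat_lit 0, nat_lit 0, nat_lit 0, nat_lit 0, nat_lit 0], [nat_lit 0,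 nat_lit 0, nat_lit 0, nat_lit 0, nat_lit 0, nat_lit 0, nat_lit 0, nat_lit 0, nat_lit 0, nat_lit 0, nat_lit 0, nat_lit 0, nat_lit 0, nat_lit 0, nat_lit 0, nat_lit 0, nat_lit 0, nat_lit 0, nat_lit 0, nat_lit 0, nat_lit 0, nat_lit 0, nat_lit 0, nat_lit 0, nat_lit 0, nat_lit 0, nat_lit 0, nat_lit 0, nat_lit 0, nat_lit 0, nat_lit 0, nat_lit 0, nat_lit 0, nat_lit 0, nat_lit 0, nat_lit 0, nat_lit 0, nat_lit 0, nat_lit 0, nat_lit 0, nat_lit 0, nat_lit 0, nat_lit 0, nat_lit 0, nat_lit 0, nat_lit 0, nat_lit 0, nat_lit 0, nat_lit 0, nat_lit 0, nat_lit 0, nat_lit 0], [nat_lit 0, nat_lit 0, nat_lit 0, nat_lit 0, nat_lit 0, nat_lit 0, nat_lit 0, nat_lit 0, nat_lit 0, nat_lit 0, nat_lit 0, nat_lit 0, nat_lit 0, nat_lit 0, nat_lit 0, nat_lit 0, nat_lit 0, nat_lit 0, nat_lit 0, nat_lit 0, nat_lit 0, nat_lit 0, nat_lit 0, nat_lit 0, nat_lit 0, nat_lit 0, nat_lit 0, nat_lit 0, nat_lit 0, nat_lit 0, nat_lit 0, nat_lit 0, nat_lit 0, nat_lit 0, nat_lit 0, nat_lit 0, nat_lit 0, nat_lit 0, nat_lit 0, nat_lit 0, nat_lit 0, nat_lit 0, nat_lit 0, nat_lit 0, nat_lit 0,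 nat_lit 0, nat_lit 0, nat_lit 0, nat_lit 0, nat_lit 0, nat_lit 0, nat_lit 0])

/-- Data. -/
noncomputable def z59 : Fn := ([nat_lit 0, nat_lit 0, nat_lit 0, nat_lit 0, nat_lit 0, nat_lit 0, nat_lit 0, nat_lit 0, nat_lit 0, nat_lit 0, nat_lit 0, nat_lit 0, nat_lit 0, nat_lit 0, nat_lit 0, nat_lit 0, nat_lit 0, nat_lit 0, nat_lit 0, nat_lit 0, nat_lit 0, nat_lit 0, nat_lit 0, nat_lit 0, nat_lit 0, nat_lit 0, nat_lit 0, nat_lit 0, nat_lit 0, nat_lit 0, nat_lit 0, nat_lit 0, nat_lit 0, nat_lit 0, nat_lit 0, nat_lit 0, nat_lit 0, nat_lit 0, nat_lit 0, nat_lit 0, nat_lit 0, nat_lit 0, nat_lit 0, nat_lit 0, nat_lit 0, nat_lit 0, nat_lit 0, nat_lit 0, nat_lit 0, nat_lit 0, nat_lit 0, nat_lit 0, nat_lit 0, nat_lit 0, nat_lit 0, nat_lit 0, nat_lit 0, nat_lit 0, nat_lit 0], [nat_lit 0, nat_lit 0, nat_lit 0, nat_lit 0, nat_lit 0, nat_lit 0, nat_lit 0, nat_lit 0, nat_lit 0, nat_lit 0, nat_lit 0, nat_lit 0, nat_lit 0, nat_lit 0, nat_lit 0, nat_lit 0, nat_lit 0, nat_lit 0, nat_lit 0, nat_lit 0, nat_lit 0, nat_lit 0, nat_lit 0, nat_lit 0, nat_lit 0, nat_lit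 0, nat_lit 0, nat_lit 0, nat_lit 0, nat_lit 0, nat_lit 0, nat_lit 0, nat_lit 0, nat_lit 0, nat_lit 0, nat_lit 0, nat_lit 0, nat_lit 0, nat_lit 0, nat_lit 0, nat_lit 0, nat_lit 0, nat_lit 0, nat_lit 0, nat_lit 0, nat_lit 0, nat_lit 0, nat_lit 0, nat_lit 0, nat_lit 0, nat_lit 0, nat_lit 0, nat_lit 0, nat_lit 0, nat_lit 0, nat_lit 0, nat_lit 0, nat_lit 0, nat_lit 0], [nat_lit 0, nat_lit 0, nat_lit 0, nat_lit 0, nat_lit 0, nat_lit 0, nat_lit 0, nat_lit 0, nat_lit 0, nat_lit 0, nat_lit 0, nat_lit 0, nat_lit 0, nat_lit 0, nat_lit 0, nat_lit 0, nat_lit 0, nat_lit 0, nat_lit 0, nat_lit 0, nat_lit 0, nat_lit 0, nat_lit 0, nat_lit 0, nat_lit 0, nat_lit 0, nat_lit 0, nat_lit 0, nat_lit 0, nat_lit 0, nat_lit 0, nat_lit 0, nat_lit 0, nat_lit 0, nat_lit 0, nat_lit 0, nat_lit 0, nat_lit 0, nat_lit 0, nat_lit 0, nat_lit 0, nat_lit 0, nat_lit 0, nat_lit 0, nat_lit 0, nat_lit 0, nat_lit 0, nat_lit 0, nat_lit 0, nat_lit 0, nat_lit 0, nat_lit 0, nat_lit 0, nat_lit 0, nat_lit 0, nat_lit 0, nat_lit 0, nat_lit 0, nat_lit 0])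

/-- Data. -/
noncomputable def z65 : Fn := ([nat_lit 0, nat_lit 0, nat_lit 0, nat_lit 0, nat_lit 0, nat_lit 0, nat_lit 0, nat_lit 0, nat_lit 0, nat_lit 0, nat_lit 0, nat_lit 0, nat_lit 0, nat_lit 0, nat_lit 0, nat_lit 0, nat_lit 0, nat_lit 0, nat_lit 0, nat_lit 0, nat_lit 0, nat_lit 0, nat_lit 0, nat_lit 0, nat_lit 0, nat_lit 0, nat_lit 0, nat_lit 0, nat_lit 0, nat_lit 0, nat_lit 0, nat_lit 0, nat_lit 0, nat_lit 0, nat_lit 0, nat_lit 0, nat_lit 0, nat_lit 0, nat_lit 0, nat_lit 0, nat_lit 0, nat_lit 0, nat_lit 0, nat_lit 0, nat_lit 0, nat_lit 0, nat_lit 0, nat_lit 0, nat_lit 0, nat_lit 0, nat_lit 0, nat_lit 0, nat_lit 0, nat_lit 0, nat_lit 0, nat_lit 0, nat_lit 0, nat_lit 0, nat_lit 0, nat_lit 0, nat_lit 0, nat_lit 0, nat_lit 0, nat_lit 0, nat_lit 0], [nat_lit 0, nat_lit 0, nat_lit 0, nat_lit 0, nat_lit 0, nat_lit 0, nat_lit 0, nat_lit 0, nat_lit 0, nat_lit 0, nat_lit 0, nat_lit 0, nat_lit 0, nat_lit 0, nat_lit 0, nat_lit 0, nat_lit 0, nat_lit 0, nat_lit 0, nat_lit 0, nat_lit 0, nat_lit 0, nat_lit 0, nat_lit 0, nat_lit 0, nat_lit 0, nat_lit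 0, nat_lit 0, nat_lit 0, nat_lit 0, nat_lit 0, nat_lit 0, nat_lit 0, nat_lit 0, nat_lit 0, nat_lit 0, nat_lit 0, nat_lit 0, nat_lit 0, nat_lit 0, nat_lit 0, nat_lit 0, nat_lit 0, nat_lit 0, nat_lit 0, nat_lit 0, nat_lit 0, nat_lit 0, nat_lit 0, nat_lit 0, nat_lit 0, nat_lit 0, nat_lit 0, nat_lit 0, nat_lit 0, nat_lit 0, nat_lit 0, nat_lit 0, nat_lit 0, nat_lit 0, nat_lit 0, nat_lit 0, nat_lit 0, nat_lit 0, nat_lit 0], [nat_lit 0, nat_lit 0, nat_lit 0, nat_lit 0, nat_lit 0, nat_lit 0, nat_lit 0, nat_lit 0, nat_lit 0, nat_lit 0, nat_lit 0, nat_lit 0, nat_lit 0, nat_lit 0, nat_lit 0, nat_lit 0, nat_lit 0, nat_lit 0, nat_lit 0, nat_lit 0, nat_lit 0, nat_lit 0, nat_lit 0, nat_lit 0, nat_lit 0, nat_lit 0, nat_lit 0, nat_lit 0, nat_lit 0, nat_lit 0, nat_lit 0, nat_lit 0, nat_lit 0, nat_lit 0, nat_lit 0, nat_lit 0, nat_lit 0, nat_lit 0, nat_lit 0, nat_lit 0, nat_lit 0, nat_lit 0, nat_lit 0, nat_lit 0, nat_lit 0, nat_lit 0, nat_lit 0, nat_lit 0, nat_lit 0, nat_lit 0, nat_lit 0, nat_lit 0, nat_lit 0, nat_lit 0, nat_lit 0, nat_lit 0, nat_lit 0, nat_lit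 0, nat_lit 0, nat_lit 0, nat_lit 0, nat_lit 0, nat_lit 0, nat_lit 0, nat_lit 0])

/-- Data. -/
noncomputable def B : List (ℕ × ℕ) := [(0, 0), (0, 5), (0, 7), (0, 10), (1, 2), (1, 6), (1, 7), (1, 9), (1, 10), (1, 12), (1, 17), (2, 7), (2, 9), (2, 10), (2, 11), (2, 14), (3, 6), (3, 7), (3, 8), (3, 9), (3, 10), (3, 11), (3, 12), (3, 13), (3, 14), (4, 7), (4, 9), (4, 10), (4, 11), (4, 13), (4, 16), (5, 9), (5, 10), (5, 11), (5, 15), (6, 9), (6, 10), (6, 11), (6, 17), (7, 10), (7, 11), (7, 13), (8, 15), (9, 15), (10, 16), (12, 15), (12, 17), (12, 19), (13, 19), (14, 19), (15, 19), (16, 19), (20, 23), (20, 25), (20, 27), (21, 27), (22, 27), (23, 27), (24, 27)]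

/-- Data. -/
noncomputable def Bh : List (ℕ × ℕ) := [(0, 5), (0, 6), (0, 7), (0, 9), (0, 10), (0, 11), (0, 12), (0, 14), (0, 17), (1, 5), (1, 6), (1, 7), (1, 8), (1, 9), (1, 10), (1, 11), (1, 12), (1, 13), (1, 14), (1, 17), (2, 0), (2, 7), (2, 9), (2, 11), (2, 12), (2, 13), (2, 14), (2, 16), (3, 2), (3, 7), (3, 9), (3, 10), (3, 11), (3, 12), (3, 13), (3, 14), (3, 15), (4, 9), (4, 11), (4, 13), (4, 16), (4, 17), (5, 9), (5, 10), (5, 11), (5, 13), (5, 15), (6, 11), (6, 13), (6, 15), (7, 11), (7, 15), (8, 16), (10, 15), (10, 17), (10, 19), (11, 19), (12, 19), (13, 19), (14, 19), (18, 23), (18, 25), (18, 27), (20, 27), (22, 27)]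

/-- Data. -/
noncomputable def Bt : List (ℕ × ℕ) := [(0, 0), (0, 1), (0, 2), (0, 3), (0, 4), (0, 5), (0, 6), (0, 7), (0, 8), (0, 9), (0, 10), (0, 11), (0, 12), (0, 13), (0, 14), (0, 15), (0, 16), (0, 17), (0, 18), (0, 19), (0, 20), (0, 21), (0, 22), (0, 23), (0, 24), (0, 25), (0, 26), (1, 1), (1, 2), (1, 3), (1, 4), (1, 5), (1, 6), (1, 7), (1, 8), (1, 9), (1, 10), (1, 11), (1, 12), (1, 13), (1, 14), (1, 15), (1, 16), (1, 17), (1, 18), (1, 19), (1, 20), (1, 21), (1, 22), (1, 23), (1, 24), (1, 25)]

/-- Data. -/
noncomputable def atom0 : AtomTab := ([(0, 0, 0), (0, 1, 2), (0, 0, 2), (0, 2, 4)], [], (0, 0), [0, 0, 0, 0, 0, 0, 0])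

/-- Data. -/
noncomputable def atom1 : AtomTab := ([(0, 0, 5), (0, 1, 7), (-5, 0, 7), (35, 2, 9)], [(35, 0, 9), (-315, 2, 11), (70, 0, 9), (-630, 2, 11), (-945, 2, 11), (3465, 4, 13)], (0, 11), [-4725, 155925, -675675, 675675, 0, 0, 0])

/-- Data. -/
noncomputable def atom2 : AtomTab := ([(0, 0, 7), (0, 1, 9), (-7, 0, 9), (63, 2, 11)], [(63, 0, 11), (-693, 2, 13), (126, 0, 11), (-1386, 2, 13), (-2079, 2, 13), (9009, 4, 15)], (0, 13), [-10395, 405405, -2027025, 2297295, 0, 0, 0])

/-- Data. -/
noncomputable def atom3 : AtomTab := ([(0, 0, 10), (0, 1, 12), (-10, 0, 12), (120, 2, 14)], [(120, 0, 14), (-1680, 2, 16), (240, 0, 14), (-3360, 2, 16), (-5040, 2, 16), (26880, 4, 18)], (0, 16), [-25200, 1209600, -7257600, 9676800, 0, 0, 0])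

/-- Data. -/
noncomputable def atom4 : AtomTab := ([(0, 0, 2), (-2, 1, 4), (-4, 1, 4), (8, 3, 6)], [(8, 1, 6), (16, 1, 6), (-48, 3, 8), (16, 1, 6), (32, 1, 6), (-96, 3, 8), (48, 1, 6), (-144, 3, 8), (-192, 3, 8), (384, 5, 10)], (1, 8), [-5040, 40320, -80640, 46080, 0, 0, 0])

/-- Data. -/
noncomputable def atom5 : AtomTab := ([(0, 0, 6), (-6, 1, 8), (-12, 1, 8), (48, 3, 10)], [(48, 1, 10), (96, 1, 10), (-480, 3, 12), (96, 1, 10), (192, 1, 10), (-960, 3, 12), (288, 1, 10), (-1440, 3, 12), (-1920, 3, 12), (5760, 5, 14)], (1, 12), [-50400, 604800, -1693440, 1290240, 0, 0, 0])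

/-- Data. -/
noncomputable def atom6 : AtomTab := ([(0, 0, 7), (-7, 1, 9), (-14, 1, 9), (63, 3, 11)], [(63, 1, 11), (126, 1, 11), (-693, 3, 13), (126, 1, 11), (252, 1, 11), (-1386, 3, 13), (378, 1, 11), (-2079, 3, 13), (-2772, 3, 13), (9009, 5, 15)], (1, 13), [-72765, 945945, -2837835, 2297295, 0, 0, 0])

/-- Data. -/
noncomputable def atom7 : AtomTab := ([(0, 0, 9), (-9, 1, 11), (-18, 1, 11), (99, 3, 13)], [(99, 1, 13), (198, 1, 13), (-1287, 3, 15), (198, 1, 13), (396, 1, 13), (-2574, 3, 15), (594, 1, 13), (-3861, 3, 15), (-5148, 3, 15), (19305, 5, 17)], (1, 15), [-135135, 2027025, -6891885, 6235515, 0, 0, 0])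

/-- Data. -/
noncomputable def atom8 : AtomTab := ([(0, 0, 10), (-10, 1, 12), (-20, 1, 12), (120, 3, 14)], [(120, 1, 14), (240, 1, 14), (-1680, 3, 16), (240, 1, 14), (480, 1, 14), (-3360, 3, 16), (720, 1, 14), (-5040, 3, 16), (-6720, 3, 16), (26880, 5, 18)], (1, 16), [-176400, 2822400, -10160640, 9676800, 0, 0, 0])

/-- Data. -/
noncomputable def atom9 : AtomTab := ([(0, 0, 12), (-12, 1, 14), (-24, 1, 14), (168, 3, 16)], [(168, 1, 16), (336, 1, 16), (-2688, 3, 18), (336, 1, 16), (672, 1, 16), (-5376, 3, 18), (1008, 1, 16), (-8064, 3, 18), (-10752, 3, 18), (48384, 5, 20)], (1, 18), [-282240, 5080320, -20321280, 21288960, 0, 0, 0])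

/-- Data. -/
noncomputable def atom10 : AtomTab := ([(0, 0, 17), (-17, 1, 19), (-34, 1, 19), (323, 3, 21)], [(323, 1, 21), (646, 1, 21), (-6783, 3, 23), (646, 1, 21), (1292, 1, 21), (-13566, 3, 23), (1938, 1, 21), (-20349, 3, 23), (-27132, 3, 23), (156009, 5, 25)], (1, 23), [-712215, 16380945, -81904725, 105306075, 0, 0, 0])

/-- Data. -/
noncomputable def atom11 : AtomTab := ([(2, 0, 7), (-14, 2, 9), (-21, 2, 9), (63, 4, 11)], [(-14, 0, 9), (126, 2, 11), (-28, 0, 9), (252, 2, 11), (378, 2, 11), (-1386, 4, 13), (-42, 0, 9), (378, 2, 11), (567, 2, 11), (-2079, 4, 13), (756, 2, 11), (-2772, 4, 13), (-3465, 4, 13), (9009, 6, 15)], (0, 11), [5670, -259875, 1756755, -3648645, 2297295, 0, 0])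

/-- Data. -/
noncomputable def atom12 : AtomTab := ([(2, 0, 9), (-18, 2, 11), (-27, 2, 11), (99, 4, 13)], [(-18, 0, 11), (198, 2, 13), (-36, 0, 11), (396, 2, 13), (594, 2, 13), (-2574, 4, 15), (-54, 0, 11), (594, 2, 13), (891, 2, 13), (-3861, 4, 15), (1188, 2, 13), (-5148, 4, 15), (-6435, 4, 15), (19305, 6, 17)], (0, 13), [8910, -482625, 3764475, -8860995, 6235515, 0, 0])

/-- Data. -/
noncomputable def atom13 : AtomTab := ([(2, 0, 10), (-20, 2, 12), (-30, 2, 12), (120, 4, 14)], [(-20, 0, 12), (240, 2, 14), (-40, 0, 12), (480, 2, 14), (720, 2, 14), (-3360, 4, 16), (-60, 0, 12), (720, 2, 14), (1080, 2, 14), (-5040, 4, 16), (1440, 2, 14), (-6720, 4, 16), (-8400, 4, 16), (26880, 6, 18)], (0, 14), [10800, -630000, 5241600, -13063680, 9676800, 0, 0])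

/-- Data. -/
noncomputable def atom14 : AtomTab := ([(2, 0, 11), (-22, 2, 13), (-33, 2, 13), (143, 4, 15)], [(-22, 0, 13), (286, 2, 15), (-44, 0, 13), (572, 2, 15), (858, 2, 15), (-4290, 4, 17), (-66, 0, 13), (858, 2, 15), (1287, 2, 15), (-6435, 4, 17), (1716, 2, 15), (-8580, 4, 17), (-10725, 4, 17), (36465, 6, 19)], (0, 15), [12870, -804375, 7110675, -18706545, 14549535, 0, 0])

/-- Data. -/
noncomputable def atom15 : AtomTab := ([(2, 0, 14), (-28, 2, 16), (-42, 2, 16), (224, 4, 18)], [(-28, 0, 16), (448, 2, 18), (-56, 0, 16), (896, 2, 18), (1344, 2, 18), (-8064, 4, 20), (-84, 0, 16), (1344, 2, 18), (2016, 2, 18), (-12096, 4, 20), (2688, 2, 18), (-16128, 4, 20), (-20160, 4, 20), (80640, 6, 22)], (0, 18), [20160, -1512000, 15724800, -47900160, 42577920, 0, 0])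

/-- Data. -/
noncomputable def atom16 : AtomTab := ([(6, 1, 6), (-18, 3, 8), (-24, 3, 8), (48, 5, 10)], [(-36, 1, 8), (-72, 1, 8), (288, 3, 10), (-108, 1, 8), (432, 3, 10), (576, 3, 10), (-1440, 5, 12), (-144, 1, 8), (576, 3, 10), (768, 3, 10), (-1920, 5, 12), (960, 3, 10), (-2400, 5, 12), (-2880, 5, 12), (5760, 7, 14)], (1, 10), [30240, -453600, 1814400, -2661120, 1290240, 0, 0])

/-- Data. -/
noncomputable def atom17 : AtomTab := ([(6, 1, 7), (-21, 3, 9), (-28, 3, 9), (63, 5, 11)], [(-42, 1, 9), (-84, 1, 9), (378, 3, 11), (-126, 1, 9), (567, 3, 11), (756, 3, 11), (-2079, 5, 13), (-168, 1, 9), (756, 3, 11), (1008, 3, 11), (-2772, 5, 13), (1260, 3, 11), (-3465, 5, 13), (-4158, 5, 13), (9009, 7, 15)], (1, 11), [39690, -654885, 2837835, -4459455, 2297295, 0, 0])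

/-- Data. -/
noncomputable def atom18 : AtomTab := ([(6, 1, 8), (-24, 3, 10), (-32, 3, 10), (80, 5, 12)], [(-48, 1, 10), (-96, 1, 10), (480, 3, 12), (-144, 1, 10), (720, 3, 12), (960, 3, 12), (-2880, 5, 14), (-192, 1, 10), (960, 3, 12), (1280, 3, 12), (-3840, 5, 14), (1600, 3, 12), (-4800, 5, 14), (-5760, 5, 14), (13440, 7, 16)], (1, 12), [50400, -907200, 4233600, -7096320, 3870720, 0, 0])

/-- Data. -/
noncomputable def atom19 : AtomTab := ([(6, 1, 9), (-27, 3, 11), (-36, 3, 11), (99, 5, 13)], [(-54, 1, 11), (-108, 1, 11), (594, 3, 13), (-162, 1, 11), (891, 3, 13), (1188, 3, 13), (-3861, 5, 15), (-216, 1, 11), (1188, 3, 13), (1584, 3, 13), (-5148, 5, 15), (1980, 3, 13), (-6435, 5, 15), (-7722, 5, 15), (19305, 7, 17)], (1, 13), [62370, -1216215, 6081075, -10830105, 6235515, 0, 0])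

/-- Data. -/
noncomputable def atom20 : AtomTab := ([(6, 1, 10), (-30, 3, 12), (-40, 3, 12), (120, 5, 14)], [(-60, 1, 12), (-120, 1, 12), (720, 3, 14), (-180, 1, 12), (1080, 3, 14), (1440, 3, 14), (-5040, 5, 16), (-240, 1, 12), (1440, 3, 14), (1920, 3, 14), (-6720, 5, 16), (2400, 3, 14), (-8400, 5, 16), (-10080, 5, 16), (26880, 7, 18)], (1, 14), [75600, -1587600, 8467200, -15966720, 9676800, 0, 0])

/-- Data. -/
noncomputable def atom21 : AtomTab := ([(6, 1, 11), (-33, 3, 13), (-44, 3, 13), (143, 5, 15)], [(-66, 1, 13), (-132, 1, 13), (858, 3, 15), (-198, 1, 13), (1287, 3, 15), (1716, 3, 15), (-6435, 5, 17), (-264, 1, 13), (1716, 3, 15), (2288, 3, 15), (-8580, 5, 17), (2860, 3, 15), (-10725, 5, 17), (-12870, 5, 17), (36465, 7, 19)], (1, 15), [90090, -2027025, 11486475, -22863555, 14549535, 0, 0])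

/-- Data. -/
noncomputable def atom22 : AtomTab := ([(6, 1, 12), (-36, 3, 14), (-48, 3, 14), (168, 5, 16)], [(-72, 1, 14), (-144, 1, 14), (1008, 3, 16), (-216, 1, 14), (1512, 3, 16), (2016, 3, 16), (-8064, 5, 18), (-288, 1, 14), (2016, 3, 16), (2688, 3, 16), (-10752, 5, 18), (3360, 3, 16), (-13440, 5, 18), (-16128, 5, 18), (48384, 7, 20)], (1, 16), [105840, -2540160, 15240960, -31933440, 21288960, 0, 0])

/-- Data. -/
noncomputable def atom23 : AtomTab := ([(6, 1, 13), (-39, 3, 15), (-52, 3, 15), (195, 5, 17)], [(-78, 1, 15), (-156, 1, 15), (1170, 3, 17), (-234, 1, 15), (1755, 3, 17), (2340, 3, 17), (-9945, 5, 19), (-312, 1, 15), (2340, 3, 17), (3120, 3, 17), (-13260, 5, 19), (3900, 3, 17), (-16575, 5, 19), (-19890, 5, 19), (62985, 7, 21)], (1, 17), [122850, -3132675, 19840275, -43648605, 30421755, 0, 0])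

/-- Data. -/
noncomputable def atom24 : AtomTab := ([(6, 1, 14), (-42, 3, 16), (-56, 3, 16), (224, 5, 18)], [(-84, 1, 16), (-168, 1, 16), (1344, 3, 18), (-252, 1, 16), (2016, 3, 18), (2688, 3, 18), (-12096, 5, 20), (-336, 1, 16), (2688, 3, 18), (3584, 3, 18), (-16128, 5, 20), (4480, 3, 18), (-20160, 5, 20), (-24192, 5, 20), (80640, 7, 22)], (1, 18), [141120, -3810240, 25401600, -58544640, 42577920, 0, 0])

/-- Data. -/
noncomputable def atom25 : AtomTab := ([(12, 2, 7), (-28, 4, 9), (-35, 4, 9), (63, 6, 11)], [(24, 0, 7), (-168, 2, 9), (-252, 2, 9), (756, 4, 11), (-336, 2, 9), (1008, 4, 11), (1260, 4, 11), (-2772, 6, 13), (-420, 2, 9), (1260, 4, 11), (1575, 4, 11), (-3465, 6, 13), (1890, 4, 11), (-4158, 6, 13), (-4851, 6, 13), (9009, 8, 15)], (0, 9), [-2520, 147420, -1340955, 4189185, -5270265, 2297295, 0])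

/-- Data. -/
noncomputable def atom26 : AtomTab := ([(12, 2, 9), (-36, 4, 11), (-45, 4, 11), (99, 6, 13)], [(24, 0, 9), (-216, 2, 11), (-324, 2, 11), (1188, 4, 13), (-432, 2, 11), (1584, 4, 13), (1980, 4, 13), (-5148, 6, 15), (-540, 2, 11), (1980, 4, 13), (2475, 4, 13), (-6435, 6, 15), (2970, 4, 13), (-7722, 6, 15), (-9009, 6, 15), (19305, 8, 17)], (0, 11), [-3240, 231660, -2490345, 8976825, -12799215, 6235515, 0])

/-- Data. -/
noncomputable def atom27 : AtomTab := ([(12, 2, 10), (-40, 4, 12), (-50, 4, 12), (120, 6, 14)], [(24, 0, 10), (-240, 2, 12), (-360, 2, 12), (1440, 4, 14), (-480, 2, 12), (1920, 4, 14), (2400, 4, 14), (-6720, 6, 16), (-600, 2, 12), (2400, 4, 14), (3000, 4, 14), (-8400, 6, 16), (3600, 4, 14), (-10080, 6, 16), (-11760, 6, 16), (26880, 8, 18)], (0, 12), [-3600, 280800, -3250800, 12499200, -18869760, 9676800, 0])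

/-- Data. -/
noncomputable def atom28 : AtomTab := ([(12, 2, 11), (-44, 4, 13), (-55, 4, 13), (143, 6, 15)], [(24, 0, 11), (-264, 2, 13), (-396, 2, 13), (1716, 4, 15), (-528, 2, 13), (2288, 4, 15), (2860, 4, 15), (-8580, 6, 17), (-660, 2, 13), (2860, 4, 15), (3575, 4, 15), (-10725, 6, 17), (4290, 4, 15), (-12870, 6, 17), (-15015, 6, 17), (36465, 8, 19)], (0, 13), [-3960, 334620, -4150575, 16956225, -27020565, 14549535, 0])

/-- Data. -/
noncomputable def atom29 : AtomTab := ([(12, 2, 13), (-52, 4, 15), (-65, 4, 15), (195, 6, 17)], [(24, 0, 13), (-312, 2, 15), (-468, 2, 15), (2340, 4, 17), (-624, 2, 15), (3120, 4, 17), (3900, 4, 17), (-13260, 6, 19), (-780, 2, 15), (3900, 4, 17), (4875, 4, 17), (-16575, 6, 19), (5850, 4, 17), (-19890, 6, 19), (-23205, 6, 19), (62985, 8, 21)], (0, 15), [-4680, 456300, -6414525, 29288025, -51584715, 30421755, 0])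

/-- Data. -/
noncomputable def atom30 : AtomTab := ([(12, 2, 16), (-64, 4, 18), (-80, 4, 18), (288, 6, 20)], [(24, 0, 16), (-384, 2, 18), (-576, 2, 18), (3456, 4, 20), (-768, 2, 18), (4608, 4, 20), (5760, 4, 20), (-23040, 6, 22), (-960, 2, 18), (5760, 4, 20), (7200, 4, 20), (-28800, 6, 22), (8640, 4, 20), (-34560, 6, 22), (-40320, 6, 22), (126720, 8, 24)], (0, 18), [-5760, 673920, -11145600, 58924800, -118609920, 79073280, 0])

/-- Data. -/
noncomputable def atom31 : AtomTab := ([(20, 3, 9), (-45, 5, 11), (-54, 5, 11), (99, 7, 13)], [(120, 1, 9), (-540, 3, 11), (-720, 3, 11), (1980, 5, 13), (-900, 3, 11), (2475, 5, 13), (2970, 5, 13), (-6435, 7, 15), (-1080, 3, 11), (2970, 5, 13), (3564, 5, 13), (-7722, 7, 15), (4158, 5, 13), (-9009, 7, 15), (-10296, 7, 15), (19305, 9, 17)], (1, 11), [-22680, 623700, -4459455, 12451725, -14768325, 6235515, 0])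

/-- Data. -/
noncomputable def atom32 : AtomTab := ([(20, 3, 10), (-50, 5, 12), (-60, 5, 12), (120, 7, 14)], [(120, 1, 10), (-600, 3, 12), (-800, 3, 12), (2400, 5, 14), (-1000, 3, 12), (3000, 5, 14), (3600, 5, 14), (-8400, 7, 16), (-1200, 3, 12), (3600, 5, 14), (4320, 5, 14), (-10080, 7, 16), (5040, 5, 14), (-11760, 7, 16), (-13440, 7, 16), (26880, 9, 18)], (1, 12), [-25200, 756000, -5821200, 17337600, -21772800, 9676800, 0])

/-- Data. -/
noncomputable def atom33 : AtomTab := ([(20, 3, 11), (-55, 5, 13), (-66, 5, 13), (143, 7, 15)], [(120, 1, 11), (-660, 3, 13), (-880, 3, 13), (2860, 5, 15), (-1100, 3, 13), (3575, 5, 15), (4290, 5, 15), (-10725, 7, 17), (-1320, 3, 13), (4290, 5, 15), (5148, 5, 15), (-12870, 7, 17), (6006, 5, 15), (-15015, 7, 17), (-17160, 7, 17), (36465, 9, 19)], (1, 13), [-27720, 900900, -7432425, 23519925, -31177575, 14549535, 0])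

/-- Data. -/
noncomputable def atom34 : AtomTab := ([(20, 3, 15), (-75, 5, 17), (-90, 5, 17), (255, 7, 19)], [(120, 1, 15), (-900, 3, 17), (-1200, 3, 17), (5100, 5, 19), (-1500, 3, 17), (6375, 5, 19), (7650, 5, 19), (-24225, 7, 21), (-1800, 3, 17), (7650, 5, 19), (9180, 5, 19), (-29070, 7, 21), (10710, 5, 19), (-33915, 7, 21), (-38760, 7, 21), (101745, 9, 23)], (1, 17), [-37800, 1606500, -16787925, 65625525, -105306075, 58503375, 0])

/-- Data. -/
noncomputable def atom35 : AtomTab := ([(30, 4, 9), (-54, 6, 11), (-63, 6, 11), (99, 8, 13)], [(360, 2, 9), (-1080, 4, 11), (-1350, 4, 11), (2970, 6, 13), (-1620, 4, 11), (3564, 6, 13), (4158, 6, 13), (-7722, 8, 15), (-1890, 4, 11), (4158, 6, 13), (4851, 6, 13), (-9009, 8, 15), (5544, 6, 13), (-10296, 8, 15), (-11583, 8, 15), (19305, 10, 17)], (0, 9), [720, -87480, 1381050, -7277985, 16505775, -16737435, 6235515])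

/-- Data. -/
noncomputable def atom36 : AtomTab := ([(30, 4, 10), (-60, 6, 12), (-70, 6, 12), (120, 8, 14)], [(360, 2, 10), (-1200, 4, 12), (-1500, 4, 12), (3600, 6, 14), (-1800, 4, 12), (4320, 6, 14), (5040, 6, 14), (-10080, 8, 16), (-2100, 4, 12), (5040, 6, 14), (5880, 6, 14), (-11760, 8, 16), (6720, 6, 14), (-13440, 8, 16), (-15120, 8, 16), (26880, 10, 18)], (0, 10), [720, -97200, 1674000, -9500400, 22982400, -24675840, 9676800])

/-- Data. -/
noncomputable def atom37 : AtomTab := ([(30, 4, 11), (-66, 6, 13), (-77, 6, 13), (143, 8, 15)], [(360, 2, 11), (-1320, 4, 13), (-1650, 4, 13), (4290, 6, 15), (-1980, 4, 13), (5148, 6, 15), (6006, 6, 15), (-12870, 8, 17), (-2310, 4, 13), (6006, 6, 15), (7007, 6, 15), (-15015, 8, 17), (8008, 6, 15), (-17160, 8, 17), (-19305, 8, 17), (36465, 10, 19)], (0, 11), [720, -106920, 1994850, -12129975, 31177575, -35334585, 14549535])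

/-- Data. -/
noncomputable def atom38 : AtomTab := ([(30, 4, 17), (-102, 6, 19), (-119, 6, 19), (323, 8, 21)], [(360, 2, 17), (-2040, 4, 19), (-2550, 4, 19), (9690, 6, 21), (-3060, 4, 19), (11628, 6, 21), (13566, 6, 21), (-40698, 8, 23), (-3570, 4, 19), (13566, 6, 21), (15827, 6, 21), (-47481, 8, 23), (18088, 6, 21), (-54264, 8, 23), (-61047, 8, 23), (156009, 10, 25)], (0, 17), [720, -165240, 4505850, -38357865, 133387695, -198911475, 105306075])

/-- Data. -/
noncomputable def atom39 : AtomTab := ([(42, 5, 10), (-70, 7, 12), (-80, 7, 12), (120, 9, 14)], [(840, 3, 10), (-2100, 5, 12), (-2520, 5, 12), (5040, 7, 14), (-2940, 5, 12), (5880, 7, 14), (6720, 7, 14), (-11760, 9, 16), (-3360, 5, 12), (6720, 7, 14), (7680, 7, 14), (-13440, 9, 16), (8640, 7, 14), (-15120, 9, 16), (-16800, 9, 16), (26880, 11, 18)], (1, 10), [5040, -277200, 3250800, -14490000, 29433600, -27578880, 9676800])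

/-- Data. -/
noncomputable def atom40 : AtomTab := ([(42, 5, 11), (-77, 7, 13), (-88, 7, 13), (143, 9, 15)], [(840, 3, 11), (-2310, 5, 13), (-2772, 5, 13), (6006, 7, 15), (-3234, 5, 13), (7007, 7, 15), (8008, 7, 15), (-15015, 9, 17), (-3696, 5, 13), (8008, 7, 15), (9152, 7, 15), (-17160, 9, 17), (10296, 7, 15), (-19305, 9, 17), (-21450, 9, 17), (36465, 11, 19)], (1, 11), [5040, -304920, 3873870, -18500625, 39929175, -39491595, 14549535])

/-- Data. -/
noncomputable def atom41 : AtomTab := ([(42, 5, 13), (-91, 7, 15), (-104, 7, 15), (195, 9, 17)], [(840, 3, 13), (-2730, 5, 15), (-3276, 5, 15), (8190, 7, 17), (-3822, 5, 15), (9555, 7, 17), (10920, 7, 17), (-23205, 9, 19), (-4368, 5, 15), (10920, 7, 17), (12480, 7, 17), (-26520, 9, 19), (14040, 7, 17), (-29835, 9, 19), (-33150, 9, 19), (62985, 11, 21)], (1, 13), [5040, -360360, 5282550, -28591875, 68968575, -75393045, 30421755])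

/-- Data. -/
noncomputable def atom42 : AtomTab := ([(56, 6, 15), (-120, 8, 17), (-135, 8, 17), (255, 10, 19)], [(1680, 4, 15), (-5040, 6, 17), (-5880, 6, 17), (14280, 8, 19), (-6720, 6, 17), (16320, 8, 19), (18360, 8, 19), (-38760, 10, 21), (-7560, 6, 17), (18360, 8, 19), (20655, 8, 19), (-43605, 10, 21), (22950, 8, 19), (-48450, 10, 21), (-53295, 10, 21), (101745, 12, 23)], (2, 15), [20160, -982800, 12209400, -60538275, 138881925, -147428505, 58503375])

/-- Data. -/
noncomputable def atom43 : AtomTab := ([(72, 7, 15), (-135, 9, 17), (-150, 9, 17), (255, 11, 19)], [(3024, 5, 15), (-7560, 7, 17), (-8640, 7, 17), (18360, 9, 19), (-9720, 7, 17), (20655, 9, 19), (22950, 9, 19), (-43605, 11, 21), (-10800, 7, 17), (22950, 9, 19), (25500, 9, 19), (-48450, 11, 21), (28050, 9, 19), (-53295, 11, 21), (-58140, 11, 21), (101745, 13, 23)], (3, 15), [60480, -2041200, 20104200, -84230325, 169405425, -161469315, 58503375])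

/-- Data. -/
noncomputable def atom44 : AtomTab := ([(90, 8, 16), (-160, 10, 18), (-176, 10, 18), (288, 12, 20)], [(5040, 6, 16), (-11520, 8, 18), (-12960, 8, 18), (25920, 10, 20), (-14400, 8, 18), (28800, 10, 20), (31680, 10, 20), (-57600, 12, 22), (-15840, 8, 18), (31680, 10, 20), (34848, 10, 20), (-63360, 12, 22), (38016, 10, 20), (-69120, 12, 22), (-74880, 12, 22), (126720, 14, 24)], (4, 16), [151200, -4112640, 35380800, -134870400, 252806400, -228096000, 79073280])

/-- Data. -/
noncomputable def atom45 : AtomTab := ([(132, 10, 15), (-180, 12, 17), (-195, 12, 17), (255, 14, 19)], [(11880, 8, 15), (-19800, 10, 17), (-21780, 10, 17), (33660, 12, 19), (-23760, 10, 17), (36720, 12, 19), (39780, 12, 19), (-58140, 14, 21), (-25740, 10, 17), (39780, 12, 19), (43095, 12, 19), (-62985, 14, 21), (46410, 12, 19), (-67830, 14, 21), (-72675, 14, 21), (101745, 16, 23)], (6, 15), [665280, -11226600, 67151700, -190771875, 279290025, -203591745, 58503375])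

/-- Data. -/
noncomputable def atom46 : AtomTab := ([(132, 10, 17), (-204, 12, 19), (-221, 12, 19), (323, 14, 21)], [(11880, 8, 17), (-22440, 10, 19), (-24684, 10, 19), (42636, 12, 21), (-26928, 10, 19), (46512, 12, 21), (50388, 12, 21), (-81396, 14, 23), (-29172, 10, 19), (50388, 12, 21), (54587, 12, 21), (-88179, 14, 23), (58786, 12, 21), (-94962, 14, 23), (-101745, 14, 23), (156009, 16, 25)], (6, 17), [665280, -12723480, 85058820, -267080625, 428244705, -339319575, 105306075])

/-- Data. -/
noncomputable def atom47 : AtomTab := ([(132, 10, 19), (-228, 12, 21), (-247, 12, 21), (399, 14, 23)], [(11880, 8, 19), (-25080, 10, 21), (-27588, 10, 21), (52668, 12, 23), (-30096, 10, 21), (57456, 12, 23), (62244, 12, 23), (-110124, 14, 25), (-32604, 10, 21), (62244, 12, 23), (67431, 12, 23), (-119301, 14, 25), (72618, 12, 23), (-128478, 14, 25), (-137655, 14, 25), (229425, 16, 27)], (6, 19), [665280, -14220360, 105072660, -361344375, 629771625, -538919325, 179639775])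

/-- Data. -/
noncomputable def atom48 : AtomTab := ([(156, 11, 19), (-247, 13, 21), (-266, 13, 21), (399, 15, 23)], [(17160, 9, 19), (-32604, 11, 21), (-35568, 11, 21), (62244, 13, 23), (-38532, 11, 21), (67431, 13, 23), (72618, 13, 23), (-119301, 15, 25), (-41496, 11, 21), (72618, 13, 23), (78204, 13, 23), (-128478, 15, 25), (83790, 13, 23), (-137655, 15, 25), (-146832, 15, 25), (229425, 17, 27)], (7, 19), [1235520, -22496760, 146584620, -454674465, 726130125, -576086175, 179639775])

/-- Data. -/
noncomputable def atom49 : AtomTab := ([(182, 12, 19), (-266, 14, 21), (-285, 14, 21), (399, 16, 23)], [(24024, 10, 19), (-41496, 12, 21), (-44954, 12, 21), (72618, 14, 23), (-48412, 12, 21), (78204, 14, 23), (83790, 14, 23), (-128478, 16, 25), (-51870, 12, 21), (83790, 14, 23), (89775, 14, 23), (-137655, 16, 25), (95760, 14, 23), (-146832, 16, 25), (-156009, 16, 25), (229425, 18, 27)], (8, 19), [2162160, -34234200, 199336410, -562871295, 829371375, -613253025, 179639775])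

/-- Data. -/
noncomputable def atom50 : AtomTab := ([(210, 13, 19), (-285, 15, 21), (-304, 15, 21), (399, 17, 23)], [(32760, 11, 19), (-51870, 13, 21), (-55860, 13, 21), (83790, 15, 23), (-59850, 13, 21), (89775, 15, 23), (95760, 15, 23), (-137655, 17, 25), (-63840, 13, 21), (95760, 15, 23), (102144, 15, 23), (-146832, 17, 25), (108528, 15, 23), (-156009, 17, 25), (-165186, 17, 25), (229425, 19, 27)], (9, 19), [3603600, -50417640, 265195350, -687036105, 939495375, -650419875, 179639775])

/-- Data. -/
noncomputable def atom51 : AtomTab := ([(240, 14, 19), (-304, 16, 21), (-323, 16, 21), (399, 18, 23)], [(43680, 12, 19), (-63840, 14, 21), (-68400, 14, 21), (95760, 16, 23), (-72960, 14, 21), (102144, 16, 23), (108528, 16, 23), (-146832, 18, 25), (-77520, 14, 21), (108528, 16, 23), (115311, 16, 23), (-156009, 18, 25), (122094, 16, 23), (-165186, 18, 25), (-174363, 18, 25), (229425, 20, 27)], (10, 19), [5765760, -72203040, 346172400, -828270135, 1056502125, -687586725, 179639775])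

/-- Data. -/
noncomputable def atom52 : AtomTab := ([(380, 18, 23), (-460, 20, 25), (-483, 20, 25), (575, 22, 27)], [(116280, 16, 23), (-157320, 18, 25), (-166060, 18, 25), (218500, 20, 27), (-174800, 18, 25), (230000, 20, 27), (241500, 20, 27), (-310500, 22, 29), (-183540, 18, 25), (241500, 20, 27), (253575, 20, 27), (-326025, 22, 29), (265650, 20, 27), (-341550, 22, 29), (-357075, 22, 29), (450225, 24, 31)], (14, 23), [27907200, -296862840, 1248727500, -2682952875, 3126812625, -1884191625, 460580175])

/-- Data. -/
noncomputable def atom53 : AtomTab := ([(380, 18, 25), (-500, 20, 27), (-525, 20, 27), (675, 22, 29)], [(116280, 16, 25), (-171000, 18, 27), (-180500, 18, 27), (256500, 20, 29), (-190000, 18, 27), (270000, 20, 29), (283500, 20, 29), (-391500, 22, 31), (-199500, 18, 27), (283500, 20, 29), (297675, 20, 29), (-411075, 22, 31), (311850, 20, 29), (-430650, 22, 31), (-450225, 22, 31), (606825, 24, 33)], (14, 25), [27907200, -322677000, 1465897500, -3382853625, 4214399625, -2703405375, 700882875])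

/-- Data. -/
noncomputable def atom54 : AtomTab := ([(380, 18, 27), (-540, 20, 29), (-567, 20, 29), (783, 22, 31)], [(116280, 16, 27), (-184680, 18, 29), (-194940, 18, 29), (297540, 20, 31), (-205200, 18, 29), (313200, 20, 31), (328860, 20, 31), (-485460, 22, 33), (-215460, 18, 29), (328860, 20, 31), (345303, 20, 31), (-509733, 22, 33), (361746, 20, 31), (-534006, 22, 33), (-558279, 22, 33), (801009, 24, 35)], (14, 27), [27907200, -348491160, 1700441100, -4194738495, 5563007505, -3784767525, 1037306655])

/-- Data. -/
noncomputable def atom55 : AtomTab := ([(420, 19, 27), (-567, 21, 29), (-594, 21, 29), (783, 23, 31)], [(143640, 17, 27), (-215460, 19, 29), (-226800, 19, 29), (328860, 21, 31), (-238140, 19, 29), (345303, 21, 31), (361746, 21, 31), (-509733, 23, 33), (-249480, 19, 29), (361746, 21, 31), (378972, 21, 31), (-534006, 23, 33), (396198, 21, 31), (-558279, 23, 33), (-582552, 23, 33), (801009, 25, 35)], (15, 27), [39070080, -453758760, 2076750900, -4837730265, 6091673445, -3952979415, 1037306655])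

/-- Data. -/
noncomputable def atom56 : AtomTab := ([(462, 20, 27), (-594, 22, 29), (-621, 22, 29), (783, 24, 31)], [(175560, 18, 27), (-249480, 20, 29), (-261954, 20, 29), (361746, 22, 31), (-274428, 20, 29), (378972, 22, 31), (396198, 22, 31), (-534006, 24, 33), (-286902, 20, 29), (396198, 22, 31), (414207, 22, 31), (-558279, 24, 33), (432216, 22, 31), (-582552, 24, 33), (-606825, 24, 33), (801009, 26, 35)], (16, 27), [53721360, -583034760, 2512325970, -5543346375, 6644369655, -4121191305, 1037306655])

/-- Data. -/
noncomputable def atom57 : AtomTab := ([(506, 21, 27), (-621, 23, 29), (-648, 23, 29), (783, 25, 31)], [(212520, 19, 27), (-286902, 21, 29), (-300564, 21, 29), (396198, 23, 31), (-314226, 21, 29), (414207, 23, 31), (432216, 23, 31), (-558279, 25, 33), (-327888, 21, 29), (432216, 23, 31), (451008, 23, 31), (-582552, 25, 33), (469800, 23, 31), (-606825, 25, 33), (-631098, 25, 33), (801009, 27, 35)], (17, 27), [72681840, -740207160, 3013085790, -6314499585, 7221096135, -4289403195, 1037306655])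

/-- Data. -/
noncomputable def atom58 : AtomTab := ([(552, 22, 27), (-648, 24, 29), (-675, 24, 29), (783, 26, 31)], [(255024, 20, 27), (-327888, 22, 29), (-342792, 22, 29), (432216, 24, 31), (-357696, 22, 29), (451008, 24, 31), (469800, 24, 31), (-582552, 26, 33), (-372600, 22, 29), (469800, 24, 31), (489375, 24, 31), (-606825, 26, 33), (508950, 24, 31), (-631098, 26, 33), (-655371, 26, 33), (801009, 28, 35)], (18, 27), [96909120, -929562480, 3585231720, -7154102655, 7821852885, -4457615085, 1037306655])

/-- Data. -/
noncomputable def atoms : List AtomTab := [atom0, atom1, atom2, atom3, atom4, atom5, atom6, atom7, atom8, atom9, atom10, atom11, atom12, atom13, atom14, atom15, atom16, atom17, atom18, atom19, atom20, atom21, atom22, atom23, atom24, atom25, atom26, atom27, atom28, atom29, atom30, atom31, atom32, atom33, atom34, atom35, atom36, atom37, atom38, atom39, atom40, atom41, atom42, atom43, atom44, atom45, atom46, atom47, atom48, atom49, atom50, atom51, atom52, atom53, atom54, atom55, atom56, atom57, atom58]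

theorem atoms_ok : atomsOk B atoms = true := by decide +kernel

/-- Data. -/
noncomputable def Fpn : VFam := ⟨⟨(FastCell.sprN 59 [(nat_lit 11, nat_lit 4611686018427387904), (nat_lit 32, nat_lit 43551470892613632), (nat_lit 39, nat_lit 43551470892613632), (nat_lit 49, nat_lit 48433650047217827840), (nat_lit 51, nat_lit 48433650047217827840), (nat_lit 56, nat_lit 18643027781398560768), (nat_lit 58, nat_lit 18643027781398560768)], FastCell.sprN 59 [(nat_lit 25, nat_lit 2164838262223405056)], FastCell.sprN 59 [(nat_lit 11, nat_lit 4611686018427387904), (nat_lit 25, nat_lit 2164838262223405056), (nat_lit 32, nat_lit 43551470892613632), (nat_lit 39, nat_lit 43551470892613632), (nat_lit 49, nat_lit 48433650047217827840), (nat_lit 51, nat_lit 48433650047217827840), (nat_lit 56, nat_lit 18643027781398560768), (nat_lit 58, nat_lit 18643027781398560768)]), (FastCell.sprN 59 [(nat_lit 36, nat_lit 87102941785227264), (nat_lit 50, nat_lit 96867300094435655680), (nat_lit 57, nat_lit 37286055562797121536)], FastCell.sprN 59 [(nat_lit 17, nat_lit 4329676524446810112)],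 FastCell.sprN 59 [(nat_lit 17, nat_lit 4329676524446810112), (nat_lit 36, nat_lit 87102941785227264), (nat_lit 50, nat_lit 96867300094435655680), (nat_lit 57, nat_lit 37286055562797121536)]), (FastCell.sprN 59 [(nat_lit 32, nat_lit 43551470892613632), (nat_lit 49, nat_lit 48433650047217827840), (nat_lit 56, nat_lit 18643027781398560768)], FastCell.sprN 59 [(nat_lit 11, nat_lit 2164838262223405056)], FastCell.sprN 59 [(nat_lit 11, nat_lit 2164838262223405056), (nat_lit 32, nat_lit 43551470892613632), (nat_lit 49, nat_lit 48433650047217827840), (nat_lit 56, nat_lit 18643027781398560768)]), z59, z59, z59, z59⟩,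
  ⟨(FastCell.sprN 59 [(nat_lit 11, nat_lit 3659431334419365888), (nat_lit 16, nat_lit 43551470892613632), (nat_lit 26, nat_lit 3329907130491731968), (nat_lit 45, nat_lit 48433650047217827840), (nat_lit 52, nat_lit 18643027781398560768)], FastCell.sprN 59 [(nat_lit 17, nat_lit 42101529661931520), (nat_lit 18, nat_lit 43551470892613632), (nat_lit 25, nat_lit 2164838262223405056), (nat_lit 37, nat_lit 132253260424675328), (nat_lit 46, nat_lit 48433650047217827840), (nat_lit 53, nat_lit 18643027781398560768)], FastCell.sprN 59 [(nat_lit 11, nat_lit 3659431334419365888), (nat_lit 16, nat_lit 43551470892613632), (nat_lit 17, nat_lit 42101529661931520), (nat_lit 18, nat_lit 43551470892613632), (nat_lit 25, nat_lit 2164838262223405056), (nat_lit 26, nat_lit 3329907130491731968), (nat_lit 37, nat_lit 132253260424675328), (nat_lit 45, nat_lit 48433650047217827840), (nat_lit 46, nat_lit 48433650047217827840), (nat_lit 52, nat_lit 18643027781398560768), (nat_lit 53, nat_lit 18643027781398560768)]), (FastCell.sprN 59 [(nat_lit 11, nat_lit 102377395972997120),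 (nat_lit 17, nat_lit 33900500067911991296), (nat_lit 29, nat_lit 41077846521432506368), (nat_lit 35, nat_lit 78621961556372488192)], FastCell.sprN 59 [(nat_lit 13, nat_lit 1027527323060011008), (nat_lit 21, nat_lit 29795558420192952320), (nat_lit 25, nat_lit 63622918070534668288)], FastCell.sprN 59 [(nat_lit 11, nat_lit 102377395972997120), (nat_lit 13, nat_lit 1027527323060011008), (nat_lit 17, nat_lit 33900500067911991296), (nat_lit 21, nat_lit 29795558420192952320), (nat_lit 25, nat_lit 63622918070534668288), (nat_lit 29, nat_lit 41077846521432506368), (nat_lit 35, nat_lit 78621961556372488192)]), (FastCell.sprN 59 [(nat_lit 11, nat_lit 553555865660030976), (nat_lit 26, nat_lit 13892380023475666944)], FastCell.sprN 59 [(nat_lit 17, nat_lit 5858299711303188480)], FastCell.sprN 59 [(nat_lit 11, nat_lit 553555865660030976), (nat_lit 17, nat_lit 5858299711303188480), (nat_lit 26, nat_lit 13892380023475666944)]), z59, (FastCell.sprN 59 [(nat_lit 1, nat_lit 379398373486100480), (nat_lit 6, nat_lit 220919163357495296), (nat_lit 19, nat_lit 1193944773065441280)],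 FastCell.sprN 59 [(nat_lit 3, nat_lit 152941463980736512), (nat_lit 11, nat_lit 1245629488235020288)], FastCell.sprN 59 [(nat_lit 1, nat_lit 379398373486100480), (nat_lit 3, nat_lit 152941463980736512), (nat_lit 6, nat_lit 220919163357495296), (nat_lit 11, nat_lit 1245629488235020288), (nat_lit 19, nat_lit 1193944773065441280)]), z59, z59⟩,
  ⟨(FastCell.sprN 59 [(nat_lit 11, nat_lit 127531678322130944), (nat_lit 18, nat_lit 295994893191348224), (nat_lit 26, nat_lit 9205013402085228544), (nat_lit 31, nat_lit 87005246311628800)], FastCell.sprN 59 [(nat_lit 23, nat_lit 673928770876342272), (nat_lit 29, nat_lit 8632112519466450944), (nat_lit 37, nat_lit 9332521841413062656), (nat_lit 38, nat_lit 16825243263827968000), (nat_lit 42, nat_lit 14725415305929031680)], FastCell.sprN 59 [(nat_lit 11, nat_lit 127531678322130944), (nat_lit 18, nat_lit 295994893191348224), (nat_lit 23, nat_lit 673928770876342272), (nat_lit 26, nat_lit 9205013402085228544), (nat_lit 29, nat_lit 8632112519466450944), (nat_lit 31, nat_lit 87005246311628800), (nat_lit 37, nat_lit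 9332521841413062656), (nat_lit 38, nat_lit 16825243263827968000), (nat_lit 42, nat_lit 14725415305929031680)]), (FastCell.sprN 59 [(nat_lit 5, nat_lit 56637968147372048384), (nat_lit 7, nat_lit 47435669964555550720), (nat_lit 19, nat_lit 19985411310023081984), (nat_lit 26, nat_lit 294710707633520640), (nat_lit 41, nat_lit 1454785864671428608)], FastCell.sprN 59 [(nat_lit 6, nat_lit 104064330873773752320), (nat_lit 11, nat_lit 126304588985794560), (nat_lit 27, nat_lit 87102941785227264), (nat_lit 33, nat_lit 30762683736973639680), (nat_lit 48, nat_lit 96867300094435655680), (nat_lit 55, nat_lit 37286055562797121536)], FastCell.sprN 59 [(nat_lit 5, nat_lit 56637968147372048384), (nat_lit 6, nat_lit 104064330873773752320), (nat_lit 7, nat_lit 47435669964555550720), (nat_lit 11, nat_lit 126304588985794560), (nat_lit 19, nat_lit 19985411310023081984), (nat_lit 26, nat_lit 294710707633520640), (nat_lit 27, nat_lit 87102941785227264), (nat_lit 33, nat_lit 30762683736973639680), (nat_lit 41, nat_lit 1454785864671428608), (nat_lit 48, nat_lit 96867300094435655680),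 (nat_lit 55, nat_lit 37286055562797121536)]), (FastCell.sprN 59 [(nat_lit 6, nat_lit 102377395972997120), (nat_lit 9, nat_lit 1517593493944401920), (nat_lit 11, nat_lit 48685911839644581888), (nat_lit 15, nat_lit 883676653429981184), (nat_lit 22, nat_lit 5137636615300055040), (nat_lit 23, nat_lit 82155693042865012736), (nat_lit 29, nat_lit 163875571311061237760), (nat_lit 30, nat_lit 4775779092261765120), (nat_lit 31, nat_lit 458546097915988803584), (nat_lit 32, nat_lit 43551470892613632), (nat_lit 49, nat_lit 48433650047217827840), (nat_lit 56, nat_lit 18643027781398560768)], FastCell.sprN 59 [(nat_lit 8, nat_lit 1027527323060011008), (nat_lit 10, nat_lit 611765855922946048), (nat_lit 14, nat_lit 44693337630289428480), (nat_lit 17, nat_lit 127245836141069336576), (nat_lit 19, nat_lit 358320885905489920), (nat_lit 24, nat_lit 4982517952940081152), (nat_lit 26, nat_lit 118651750237691969536), (nat_lit 34, nat_lit 267006002389311291392), (nat_lit 40, nat_lit 353798827003676196864)], FastCell.sprN 59 [(nat_lit 6, nat_lit 102377395972997120), (nat_lit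 8, nat_lit 1027527323060011008), (nat_lit 9, nat_lit 1517593493944401920), (nat_lit 10, nat_lit 611765855922946048), (nat_lit 11, nat_lit 48685911839644581888), (nat_lit 14, nat_lit 44693337630289428480), (nat_lit 15, nat_lit 883676653429981184), (nat_lit 17, nat_lit 127245836141069336576), (nat_lit 19, nat_lit 358320885905489920), (nat_lit 22, nat_lit 5137636615300055040), (nat_lit 23, nat_lit 82155693042865012736), (nat_lit 24, nat_lit 4982517952940081152), (nat_lit 26, nat_lit 118651750237691969536), (nat_lit 29, nat_lit 163875571311061237760), (nat_lit 30, nat_lit 4775779092261765120), (nat_lit 31, nat_lit 458546097915988803584), (nat_lit 32, nat_lit 43551470892613632), (nat_lit 34, nat_lit 267006002389311291392), (nat_lit 40, nat_lit 353798827003676196864), (nat_lit 49, nat_lit 48433650047217827840), (nat_lit 56, nat_lit 18643027781398560768)]), (FastCell.sprN 59 [(nat_lit 6, nat_lit 369037243773353984), (nat_lit 19, nat_lit 17231543011427483648), (nat_lit 26, nat_lit 13669365993040773120)], FastCell.sprN 59 [(nat_lit 11, nat_lit 5858299711303188480),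 (nat_lit 33, nat_lit 41677140070427000832)], FastCell.sprN 59 [(nat_lit 6, nat_lit 369037243773353984), (nat_lit 11, nat_lit 5858299711303188480), (nat_lit 19, nat_lit 17231543011427483648), (nat_lit 26, nat_lit 13669365993040773120), (nat_lit 33, nat_lit 41677140070427000832)]), z59, (FastCell.sprN 59 [(nat_lit 2, nat_lit 220919163357495296), (nat_lit 9, nat_lit 1529414639807365120), (nat_lit 12, nat_lit 2035400175693856768), (nat_lit 19, nat_lit 8719406417645142016)], FastCell.sprN 59 [(nat_lit 6, nat_lit 2865951234030829568), (nat_lit 28, nat_lit 10745502957588971520)], FastCell.sprN 59 [(nat_lit 2, nat_lit 220919163357495296), (nat_lit 6, nat_lit 2865951234030829568), (nat_lit 9, nat_lit 1529414639807365120), (nat_lit 12, nat_lit 2035400175693856768), (nat_lit 19, nat_lit 8719406417645142016), (nat_lit 28, nat_lit 10745502957588971520)]), z59⟩,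
  ⟨(FastCell.sprN 59 [(nat_lit 11, nat_lit 952254684008022016), (nat_lit 17, nat_lit 42101529661931520), (nat_lit 37, nat_lit 132253260424675328)], FastCell.sprN 59 [(nat_lit 26, nat_lit 3329907130491731968)], FastCell.sprN 59 [(nat_lit 11, nat_lit 952254684008022016), (nat_lit 17, nat_lit 42101529661931520), (nat_lit 26, nat_lit 3329907130491731968), (nat_lit 37, nat_lit 132253260424675328)]), (FastCell.sprN 59 [(nat_lit 13, nat_lit 1027527323060011008), (nat_lit 21, nat_lit 29795558420192952320), (nat_lit 25, nat_lit 63622918070534668288), (nat_lit 36, nat_lit 87102941785227264), (nat_lit 50, nat_lit 96867300094435655680), (nat_lit 57, nat_lit 37286055562797121536)], FastCell.sprN 59 [(nat_lit 11, nat_lit 102377395972997120), (nat_lit 17, nat_lit 38230176592358801408), (nat_lit 29, nat_lit 41077846521432506368), (nat_lit 35, nat_lit 78621961556372488192)], FastCell.sprN 59 [(nat_lit 11, nat_lit 102377395972997120), (nat_lit 13, nat_lit 1027527323060011008), (nat_lit 17, nat_lit 38230176592358801408), (nat_lit 21, nat_lit 29795558420192952320),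 (nat_lit 25, nat_lit 63622918070534668288), (nat_lit 29, nat_lit 41077846521432506368), (nat_lit 35, nat_lit 78621961556372488192), (nat_lit 36, nat_lit 87102941785227264), (nat_lit 50, nat_lit 96867300094435655680), (nat_lit 57, nat_lit 37286055562797121536)]), (FastCell.sprN 59 [(nat_lit 17, nat_lit 5858299711303188480), (nat_lit 32, nat_lit 43551470892613632), (nat_lit 49, nat_lit 48433650047217827840), (nat_lit 56, nat_lit 18643027781398560768)], FastCell.sprN 59 [(nat_lit 11, nat_lit 2718394127883436032), (nat_lit 26, nat_lit 13892380023475666944)], FastCell.sprN 59 [(nat_lit 11, nat_lit 2718394127883436032), (nat_lit 17, nat_lit 5858299711303188480), (nat_lit 26, nat_lit 13892380023475666944), (nat_lit 32, nat_lit 43551470892613632), (nat_lit 49, nat_lit 48433650047217827840), (nat_lit 56, nat_lit 18643027781398560768)]), z59, (FastCell.sprN 59 [(nat_lit 3, nat_lit 152941463980736512), (nat_lit 11, nat_lit 1245629488235020288)], FastCell.sprN 59 [(nat_lit 1, nat_lit 379398373486100480), (nat_lit 6, nat_lit 220919163357495296), (nat_lit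 19, nat_lit 1193944773065441280)], FastCell.sprN 59 [(nat_lit 1, nat_lit 379398373486100480), (nat_lit 3, nat_lit 152941463980736512), (nat_lit 6, nat_lit 220919163357495296), (nat_lit 11, nat_lit 1245629488235020288), (nat_lit 19, nat_lit 1193944773065441280)]), z59, z59⟩⟩

theorem eFpn : vfam B 3 p sn = some Fpn := by decide +kernel

theorem fitpn : famFits 162 59 4722366482869645213696 47220265384565300831338 337680392383609994192544018 Fpn = true := by decide +kernel

/-- Data. -/
noncomputable def Fpp : VFam := ⟨⟨(FastCell.sprN 59 [(nat_lit 11, nat_lit 4611686018427387904), (nat_lit 49, nat_lit 37518785254858424320), (nat_lit 51, nat_lit 37518785254858424320)], FastCell.sprN 59 [(nat_lit 25, nat_lit 2164838262223405056)], FastCell.sprN 59 [(nat_lit 11, nat_lit 4611686018427387904), (nat_lit 25, nat_lit 2164838262223405056), (nat_lit 49, nat_lit 37518785254858424320), (nat_lit 51, nat_lit 37518785254858424320)]), (FastCell.sprN 59 [(nat_lit 50, nat_lit 75037570509716848640)], FastCell.sprN 59 [(nat_lit 17, nat_lit 4329676524446810112)],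 FastCell.sprN 59 [(nat_lit 17, nat_lit 4329676524446810112), (nat_lit 50, nat_lit 75037570509716848640)]), (FastCell.sprN 59 [(nat_lit 37, nat_lit 429453079847370752), (nat_lit 44, nat_lit 205508621739382276096), (nat_lit 49, nat_lit 37518785254858424320)], FastCell.sprN 59 [(nat_lit 11, nat_lit 2164838262223405056)], FastCell.sprN 59 [(nat_lit 11, nat_lit 2164838262223405056), (nat_lit 37, nat_lit 429453079847370752), (nat_lit 44, nat_lit 205508621739382276096), (nat_lit 49, nat_lit 37518785254858424320)]), z59, z59, z59, z59⟩,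
  ⟨(FastCell.sprN 59 [(nat_lit 11, nat_lit 3659431334419365888), (nat_lit 26, nat_lit 3329907130491731968), (nat_lit 45, nat_lit 37518785254858424320)], FastCell.sprN 59 [(nat_lit 17, nat_lit 42101529661931520), (nat_lit 25, nat_lit 2164838262223405056), (nat_lit 37, nat_lit 132253260424675328), (nat_lit 46, nat_lit 37518785254858424320)], FastCell.sprN 59 [(nat_lit 11, nat_lit 3659431334419365888), (nat_lit 17, nat_lit 42101529661931520), (nat_lit 25, nat_lit 2164838262223405056), (nat_lit 26, nat_lit 3329907130491731968), (nat_lit 37, nat_lit 132253260424675328), (nat_lit 45, nat_lit 37518785254858424320), (nat_lit 46, nat_lit 37518785254858424320)]), (FastCell.sprN 59 [(nat_lit 11, nat_lit 102377395972997120), (nat_lit 17, nat_lit 33900500067911991296), (nat_lit 29, nat_lit 41077846521432506368), (nat_lit 35, nat_lit 78621961556372488192)], FastCell.sprN 59 [(nat_lit 13, nat_lit 1027527323060011008), (nat_lit 21, nat_lit 29795558420192952320), (nat_lit 25, nat_lit 63622918070534668288)], FastCell.sprN 59 [(nat_lit 11, nat_lit 102377395972997120),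 (nat_lit 13, nat_lit 1027527323060011008), (nat_lit 17, nat_lit 33900500067911991296), (nat_lit 21, nat_lit 29795558420192952320), (nat_lit 25, nat_lit 63622918070534668288), (nat_lit 29, nat_lit 41077846521432506368), (nat_lit 35, nat_lit 78621961556372488192)]), (FastCell.sprN 59 [(nat_lit 11, nat_lit 553555865660030976), (nat_lit 26, nat_lit 13892380023475666944)], FastCell.sprN 59 [(nat_lit 17, nat_lit 5858299711303188480)], FastCell.sprN 59 [(nat_lit 11, nat_lit 553555865660030976), (nat_lit 17, nat_lit 5858299711303188480), (nat_lit 26, nat_lit 13892380023475666944)]), z59, (FastCell.sprN 59 [(nat_lit 1, nat_lit 379398373486100480), (nat_lit 6, nat_lit 220919163357495296), (nat_lit 19, nat_lit 1193944773065441280)], FastCell.sprN 59 [(nat_lit 3, nat_lit 152941463980736512), (nat_lit 11, nat_lit 1245629488235020288)], FastCell.sprN 59 [(nat_lit 1, nat_lit 379398373486100480), (nat_lit 3, nat_lit 152941463980736512), (nat_lit 6, nat_lit 220919163357495296), (nat_lit 11, nat_lit 1245629488235020288), (nat_lit 19, nat_lit 1193944773065441280)]),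 z59, z59⟩,
  ⟨(FastCell.sprN 59 [(nat_lit 11, nat_lit 127531678322130944), (nat_lit 18, nat_lit 295994893191348224), (nat_lit 26, nat_lit 9205013402085228544), (nat_lit 31, nat_lit 87005246311628800)], FastCell.sprN 59 [(nat_lit 23, nat_lit 673928770876342272), (nat_lit 29, nat_lit 8632112519466450944), (nat_lit 37, nat_lit 9332521841413062656), (nat_lit 38, nat_lit 16825243263827968000), (nat_lit 42, nat_lit 14725415305929031680)], FastCell.sprN 59 [(nat_lit 11, nat_lit 127531678322130944), (nat_lit 18, nat_lit 295994893191348224), (nat_lit 23, nat_lit 673928770876342272), (nat_lit 26, nat_lit 9205013402085228544), (nat_lit 29, nat_lit 8632112519466450944), (nat_lit 31, nat_lit 87005246311628800), (nat_lit 37, nat_lit 9332521841413062656), (nat_lit 38, nat_lit 16825243263827968000), (nat_lit 42, nat_lit 14725415305929031680)]), (FastCell.sprN 59 [(nat_lit 5, nat_lit 56637968147372048384), (nat_lit 7, nat_lit 47435669964555550720), (nat_lit 19, nat_lit 19985411310023081984), (nat_lit 26, nat_lit 294710707633520640), (nat_lit 41, nat_lit 1454785864671428608)],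 FastCell.sprN 59 [(nat_lit 6, nat_lit 104064330873773752320), (nat_lit 11, nat_lit 126304588985794560), (nat_lit 33, nat_lit 30762683736973639680), (nat_lit 48, nat_lit 75037570509716848640)], FastCell.sprN 59 [(nat_lit 5, nat_lit 56637968147372048384), (nat_lit 6, nat_lit 104064330873773752320), (nat_lit 7, nat_lit 47435669964555550720), (nat_lit 11, nat_lit 126304588985794560), (nat_lit 19, nat_lit 19985411310023081984), (nat_lit 26, nat_lit 294710707633520640), (nat_lit 33, nat_lit 30762683736973639680), (nat_lit 41, nat_lit 1454785864671428608), (nat_lit 48, nat_lit 75037570509716848640)]), (FastCell.sprN 59 [(nat_lit 6, nat_lit 102377395972997120), (nat_lit 9, nat_lit 1517593493944401920), (nat_lit 11, nat_lit 48685911839644581888), (nat_lit 15, nat_lit 883676653429981184), (nat_lit 22, nat_lit 5137636615300055040), (nat_lit 23, nat_lit 82155693042865012736), (nat_lit 29, nat_lit 163875571311061237760), (nat_lit 30, nat_lit 4775779092261765120), (nat_lit 31, nat_lit 458546097915988803584), (nat_lit 37, nat_lit 429453079847370752), (nat_lit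 44, nat_lit 205508621739382276096), (nat_lit 49, nat_lit 37518785254858424320)], FastCell.sprN 59 [(nat_lit 8, nat_lit 1027527323060011008), (nat_lit 10, nat_lit 611765855922946048), (nat_lit 14, nat_lit 44693337630289428480), (nat_lit 17, nat_lit 127245836141069336576), (nat_lit 19, nat_lit 358320885905489920), (nat_lit 24, nat_lit 4982517952940081152), (nat_lit 26, nat_lit 118651750237691969536), (nat_lit 32, nat_lit 429453079847370752), (nat_lit 34, nat_lit 267006002389311291392), (nat_lit 40, nat_lit 353798827003676196864), (nat_lit 43, nat_lit 205508621739382276096)], FastCell.sprN 59 [(nat_lit 6, nat_lit 102377395972997120), (nat_lit 8, nat_lit 1027527323060011008), (nat_lit 9, nat_lit 1517593493944401920), (nat_lit 10, nat_lit 611765855922946048), (nat_lit 11, nat_lit 48685911839644581888), (nat_lit 14, nat_lit 44693337630289428480), (nat_lit 15, nat_lit 883676653429981184), (nat_lit 17, nat_lit 127245836141069336576), (nat_lit 19, nat_lit 358320885905489920), (nat_lit 22, nat_lit 5137636615300055040), (nat_lit 23, nat_lit 82155693042865012736),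 (nat_lit 24, nat_lit 4982517952940081152), (nat_lit 26, nat_lit 118651750237691969536), (nat_lit 29, nat_lit 163875571311061237760), (nat_lit 30, nat_lit 4775779092261765120), (nat_lit 31, nat_lit 458546097915988803584), (nat_lit 32, nat_lit 429453079847370752), (nat_lit 34, nat_lit 267006002389311291392), (nat_lit 37, nat_lit 429453079847370752), (nat_lit 40, nat_lit 353798827003676196864), (nat_lit 43, nat_lit 205508621739382276096), (nat_lit 44, nat_lit 205508621739382276096), (nat_lit 49, nat_lit 37518785254858424320)]), (FastCell.sprN 59 [(nat_lit 6, nat_lit 369037243773353984), (nat_lit 19, nat_lit 17231543011427483648), (nat_lit 26, nat_lit 13669365993040773120)], FastCell.sprN 59 [(nat_lit 11, nat_lit 5858299711303188480), (nat_lit 33, nat_lit 41677140070427000832)], FastCell.sprN 59 [(nat_lit 6, nat_lit 369037243773353984), (nat_lit 11, nat_lit 5858299711303188480), (nat_lit 19, nat_lit 17231543011427483648), (nat_lit 26, nat_lit 13669365993040773120), (nat_lit 33, nat_lit 41677140070427000832)]), z59, (FastCell.sprN 59 [(nat_lit 2,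 nat_lit 220919163357495296), (nat_lit 9, nat_lit 1529414639807365120), (nat_lit 12, nat_lit 2035400175693856768), (nat_lit 19, nat_lit 8719406417645142016)], FastCell.sprN 59 [(nat_lit 6, nat_lit 2865951234030829568), (nat_lit 28, nat_lit 10745502957588971520)], FastCell.sprN 59 [(nat_lit 2, nat_lit 220919163357495296), (nat_lit 6, nat_lit 2865951234030829568), (nat_lit 9, nat_lit 1529414639807365120), (nat_lit 12, nat_lit 2035400175693856768), (nat_lit 19, nat_lit 8719406417645142016), (nat_lit 28, nat_lit 10745502957588971520)]), z59⟩,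
  ⟨(FastCell.sprN 59 [(nat_lit 11, nat_lit 952254684008022016), (nat_lit 17, nat_lit 42101529661931520), (nat_lit 37, nat_lit 132253260424675328)], FastCell.sprN 59 [(nat_lit 26, nat_lit 3329907130491731968)], FastCell.sprN 59 [(nat_lit 11, nat_lit 952254684008022016), (nat_lit 17, nat_lit 42101529661931520), (nat_lit 26, nat_lit 3329907130491731968), (nat_lit 37, nat_lit 132253260424675328)]), (FastCell.sprN 59 [(nat_lit 13, nat_lit 1027527323060011008), (nat_lit 21, nat_lit 29795558420192952320), (nat_lit 25, nat_lit 63622918070534668288), (nat_lit 50, nat_lit 75037570509716848640)], FastCell.sprN 59 [(nat_lit 11, nat_lit 102377395972997120), (nat_lit 17, nat_lit 38230176592358801408), (nat_lit 29, nat_lit 41077846521432506368), (nat_lit 35, nat_lit 78621961556372488192)], FastCell.sprN 59 [(nat_lit 11, nat_lit 102377395972997120), (nat_lit 13, nat_lit 1027527323060011008), (nat_lit 17, nat_lit 38230176592358801408), (nat_lit 21, nat_lit 29795558420192952320), (nat_lit 25, nat_lit 63622918070534668288), (nat_lit 29, nat_lit 41077846521432506368),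 (nat_lit 35, nat_lit 78621961556372488192), (nat_lit 50, nat_lit 75037570509716848640)]), (FastCell.sprN 59 [(nat_lit 17, nat_lit 5858299711303188480), (nat_lit 37, nat_lit 429453079847370752), (nat_lit 44, nat_lit 205508621739382276096), (nat_lit 49, nat_lit 37518785254858424320)], FastCell.sprN 59 [(nat_lit 11, nat_lit 2718394127883436032), (nat_lit 26, nat_lit 13892380023475666944)], FastCell.sprN 59 [(nat_lit 11, nat_lit 2718394127883436032), (nat_lit 17, nat_lit 5858299711303188480), (nat_lit 26, nat_lit 13892380023475666944), (nat_lit 37, nat_lit 429453079847370752), (nat_lit 44, nat_lit 205508621739382276096), (nat_lit 49, nat_lit 37518785254858424320)]), z59, (FastCell.sprN 59 [(nat_lit 3, nat_lit 152941463980736512), (nat_lit 11, nat_lit 1245629488235020288)], FastCell.sprN 59 [(nat_lit 1, nat_lit 379398373486100480), (nat_lit 6, nat_lit 220919163357495296), (nat_lit 19, nat_lit 1193944773065441280)], FastCell.sprN 59 [(nat_lit 1, nat_lit 379398373486100480), (nat_lit 3, nat_lit 152941463980736512), (nat_lit 6, nat_lit 220919163357495296),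 (nat_lit 11, nat_lit 1245629488235020288), (nat_lit 19, nat_lit 1193944773065441280)]), z59, z59⟩⟩

theorem eFpp : vfam B 3 p sp = some Fpp := by decide +kernel

theorem fitpp : famFits 162 59 4722366482869645213696 47220265384565300831338 337680392383609994192544018 Fpp = true := by decide +kernel

/-- Data. -/
noncomputable def Fqn : VFam := ⟨⟨(FastCell.sprN 59 [(nat_lit 11, nat_lit 4611686018427387904), (nat_lit 32, nat_lit 43551470892613632), (nat_lit 39, nat_lit 43551470892613632), (nat_lit 49, nat_lit 48433650047217827840), (nat_lit 51, nat_lit 48433650047217827840), (nat_lit 56, nat_lit 18643027781398560768), (nat_lit 58, nat_lit 18643027781398560768)], FastCell.sprN 59 [(nat_lit 25, nat_lit 3110137865170845696)], FastCell.sprN 59 [(nat_lit 11, nat_lit 4611686018427387904), (nat_lit 25, nat_lit 3110137865170845696), (nat_lit 32, nat_lit 43551470892613632), (nat_lit 39, nat_lit 43551470892613632), (nat_lit 49, nat_lit 48433650047217827840), (nat_lit 51, nat_lit 48433650047217827840), (nat_lit 56, nat_lit 18643027781398560768), (nat_lit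 58, nat_lit 18643027781398560768)]), (FastCell.sprN 59 [(nat_lit 36, nat_lit 87102941785227264), (nat_lit 50, nat_lit 96867300094435655680), (nat_lit 57, nat_lit 37286055562797121536)], FastCell.sprN 59 [(nat_lit 17, nat_lit 6220275730341691392)], FastCell.sprN 59 [(nat_lit 17, nat_lit 6220275730341691392), (nat_lit 36, nat_lit 87102941785227264), (nat_lit 50, nat_lit 96867300094435655680), (nat_lit 57, nat_lit 37286055562797121536)]), (FastCell.sprN 59 [(nat_lit 32, nat_lit 43551470892613632), (nat_lit 49, nat_lit 48433650047217827840), (nat_lit 56, nat_lit 18643027781398560768)], FastCell.sprN 59 [(nat_lit 11, nat_lit 3110137865170845696)], FastCell.sprN 59 [(nat_lit 11, nat_lit 3110137865170845696), (nat_lit 32, nat_lit 43551470892613632), (nat_lit 49, nat_lit 48433650047217827840), (nat_lit 56, nat_lit 18643027781398560768)]), z59, z59, z59, z59⟩,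
  ⟨(FastCell.sprN 59 [(nat_lit 11, nat_lit 3144586734847655936), (nat_lit 16, nat_lit 43551470892613632), (nat_lit 17, nat_lit 457106041025331200), (nat_lit 26, nat_lit 2837822685755473920), (nat_lit 45, nat_lit 48433650047217827840), (nat_lit 52, nat_lit 18643027781398560768)], FastCell.sprN 59 [(nat_lit 18, nat_lit 43551470892613632), (nat_lit 25, nat_lit 3110137865170845696), (nat_lit 37, nat_lit 54168020162969600), (nat_lit 46, nat_lit 48433650047217827840), (nat_lit 53, nat_lit 18643027781398560768)], FastCell.sprN 59 [(nat_lit 11, nat_lit 3144586734847655936), (nat_lit 16, nat_lit 43551470892613632), (nat_lit 17, nat_lit 457106041025331200), (nat_lit 18, nat_lit 43551470892613632), (nat_lit 25, nat_lit 3110137865170845696), (nat_lit 26, nat_lit 2837822685755473920), (nat_lit 37, nat_lit 54168020162969600), (nat_lit 45, nat_lit 48433650047217827840), (nat_lit 46, nat_lit 48433650047217827840), (nat_lit 52, nat_lit 18643027781398560768), (nat_lit 53, nat_lit 18643027781398560768)]), (FastCell.sprN 59 [(nat_lit 11, nat_lit 68408995899519270912),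 (nat_lit 17, nat_lit 40614643320137711616), (nat_lit 29, nat_lit 25709144763172651008), (nat_lit 35, nat_lit 183675137945224871936)], FastCell.sprN 59 [(nat_lit 13, nat_lit 72036038112465387520), (nat_lit 21, nat_lit 31828151751007010816), (nat_lit 25, nat_lit 165821344519391543296)], FastCell.sprN 59 [(nat_lit 11, nat_lit 68408995899519270912), (nat_lit 13, nat_lit 72036038112465387520), (nat_lit 17, nat_lit 40614643320137711616), (nat_lit 21, nat_lit 31828151751007010816), (nat_lit 25, nat_lit 165821344519391543296), (nat_lit 29, nat_lit 25709144763172651008), (nat_lit 35, nat_lit 183675137945224871936)]), (FastCell.sprN 59 [(nat_lit 11, nat_lit 1300577615119122432), (nat_lit 26, nat_lit 23612014312097316864)], FastCell.sprN 59 [(nat_lit 17, nat_lit 13465259332060839936)], FastCell.sprN 59 [(nat_lit 11, nat_lit 1300577615119122432), (nat_lit 17, nat_lit 13465259332060839936), (nat_lit 26, nat_lit 23612014312097316864)]), z59, (FastCell.sprN 59 [(nat_lit 1, nat_lit 460240696062771200), (nat_lit 3, nat_lit 441945642915332096), (nat_lit 19, nat_lit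 781946049466990592)], FastCell.sprN 59 [(nat_lit 6, nat_lit 26070391357177856), (nat_lit 11, nat_lit 120985462042001408)], FastCell.sprN 59 [(nat_lit 1, nat_lit 460240696062771200), (nat_lit 3, nat_lit 441945642915332096), (nat_lit 6, nat_lit 26070391357177856), (nat_lit 11, nat_lit 120985462042001408), (nat_lit 19, nat_lit 781946049466990592)]), z59, z59⟩,
  ⟨(FastCell.sprN 59 [(nat_lit 11, nat_lit 475954362196164608), (nat_lit 18, nat_lit 226081696867418112), (nat_lit 26, nat_lit 9443110265668239360), (nat_lit 31, nat_lit 114616638648614912)], FastCell.sprN 59 [(nat_lit 23, nat_lit 898923612310863872), (nat_lit 29, nat_lit 9726807620592861184), (nat_lit 37, nat_lit 9904726811554611200), (nat_lit 38, nat_lit 18270171998166450176), (nat_lit 42, nat_lit 15473141751073472512)], FastCell.sprN 59 [(nat_lit 11, nat_lit 475954362196164608), (nat_lit 18, nat_lit 226081696867418112), (nat_lit 23, nat_lit 898923612310863872), (nat_lit 26, nat_lit 9443110265668239360), (nat_lit 29, nat_lit 9726807620592861184), (nat_lit 31, nat_lit 114616638648614912),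 (nat_lit 37, nat_lit 9904726811554611200), (nat_lit 38, nat_lit 18270171998166450176), (nat_lit 42, nat_lit 15473141751073472512)]), (FastCell.sprN 59 [(nat_lit 5, nat_lit 60678833109282586624), (nat_lit 7, nat_lit 54052767185187635200), (nat_lit 11, nat_lit 1371318123075993600), (nat_lit 19, nat_lit 21620985728080019456), (nat_lit 41, nat_lit 595848221792665600)], FastCell.sprN 59 [(nat_lit 6, nat_lit 114722125591246536704), (nat_lit 26, nat_lit 3199742287177318400), (nat_lit 27, nat_lit 87102941785227264), (nat_lit 33, nat_lit 25865412292777082880), (nat_lit 48, nat_lit 96867300094435655680), (nat_lit 55, nat_lit 37286055562797121536)], FastCell.sprN 59 [(nat_lit 5, nat_lit 60678833109282586624), (nat_lit 6, nat_lit 114722125591246536704), (nat_lit 7, nat_lit 54052767185187635200), (nat_lit 11, nat_lit 1371318123075993600), (nat_lit 19, nat_lit 21620985728080019456), (nat_lit 26, nat_lit 3199742287177318400), (nat_lit 27, nat_lit 87102941785227264), (nat_lit 33, nat_lit 25865412292777082880), (nat_lit 41, nat_lit 595848221792665600), (nat_lit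 48, nat_lit 96867300094435655680), (nat_lit 55, nat_lit 37286055562797121536)]), (FastCell.sprN 59 [(nat_lit 6, nat_lit 68408995899519270912), (nat_lit 9, nat_lit 1840962784251084800), (nat_lit 10, nat_lit 1767782571661328384), (nat_lit 11, nat_lit 57811827115035721728), (nat_lit 22, nat_lit 360180190562326937600), (nat_lit 23, nat_lit 51418289526345302016), (nat_lit 29, nat_lit 175054834630538559488), (nat_lit 30, nat_lit 3127784197867962368), (nat_lit 31, nat_lit 1131400119653545017344), (nat_lit 32, nat_lit 43551470892613632), (nat_lit 49, nat_lit 48433650047217827840), (nat_lit 56, nat_lit 18643027781398560768)], FastCell.sprN 59 [(nat_lit 8, nat_lit 72036038112465387520), (nat_lit 14, nat_lit 47742227626510516224), (nat_lit 15, nat_lit 104281565428711424), (nat_lit 17, nat_lit 331642689038783086592), (nat_lit 19, nat_lit 239431485648317448192), (nat_lit 24, nat_lit 483941848168005632), (nat_lit 26, nat_lit 142151251620481990656), (nat_lit 34, nat_lit 167109440960622231552), (nat_lit 40, nat_lit 826538120753511923712)], FastCell.sprN 59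 [(nat_lit 6, nat_lit 68408995899519270912), (nat_lit 8, nat_lit 72036038112465387520), (nat_lit 9, nat_lit 1840962784251084800), (nat_lit 10, nat_lit 1767782571661328384), (nat_lit 11, nat_lit 57811827115035721728), (nat_lit 14, nat_lit 47742227626510516224), (nat_lit 15, nat_lit 104281565428711424), (nat_lit 17, nat_lit 331642689038783086592), (nat_lit 19, nat_lit 239431485648317448192), (nat_lit 22, nat_lit 360180190562326937600), (nat_lit 23, nat_lit 51418289526345302016), (nat_lit 24, nat_lit 483941848168005632), (nat_lit 26, nat_lit 142151251620481990656), (nat_lit 29, nat_lit 175054834630538559488), (nat_lit 30, nat_lit 3127784197867962368), (nat_lit 31, nat_lit 1131400119653545017344), (nat_lit 32, nat_lit 43551470892613632), (nat_lit 34, nat_lit 167109440960622231552), (nat_lit 40, nat_lit 826538120753511923712), (nat_lit 49, nat_lit 48433650047217827840), (nat_lit 56, nat_lit 18643027781398560768)]), (FastCell.sprN 59 [(nat_lit 6, nat_lit 867051743412748288), (nat_lit 19, nat_lit 28448004647518470144), (nat_lit 26, nat_lit 31418938441475293184)],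 FastCell.sprN 59 [(nat_lit 11, nat_lit 13465259332060839936), (nat_lit 33, nat_lit 70836042936291950592)], FastCell.sprN 59 [(nat_lit 6, nat_lit 867051743412748288), (nat_lit 11, nat_lit 13465259332060839936), (nat_lit 19, nat_lit 28448004647518470144), (nat_lit 26, nat_lit 31418938441475293184), (nat_lit 33, nat_lit 70836042936291950592)]), z59, (FastCell.sprN 59 [(nat_lit 6, nat_lit 2869691025264214016), (nat_lit 12, nat_lit 2528330887901216768), (nat_lit 19, nat_lit 846898234294009856)], FastCell.sprN 59 [(nat_lit 2, nat_lit 26070391357177856), (nat_lit 9, nat_lit 4419456429153320960), (nat_lit 28, nat_lit 7037514445202915328)], FastCell.sprN 59 [(nat_lit 2, nat_lit 26070391357177856), (nat_lit 6, nat_lit 2869691025264214016), (nat_lit 9, nat_lit 4419456429153320960), (nat_lit 12, nat_lit 2528330887901216768), (nat_lit 19, nat_lit 846898234294009856), (nat_lit 28, nat_lit 7037514445202915328)]), z59⟩,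
  ⟨(FastCell.sprN 59 [(nat_lit 11, nat_lit 1467099283579731968), (nat_lit 37, nat_lit 54168020162969600)], FastCell.sprN 59 [(nat_lit 17, nat_lit 457106041025331200), (nat_lit 26, nat_lit 2837822685755473920)], FastCell.sprN 59 [(nat_lit 11, nat_lit 1467099283579731968), (nat_lit 17, nat_lit 457106041025331200), (nat_lit 26, nat_lit 2837822685755473920), (nat_lit 37, nat_lit 54168020162969600)]), (FastCell.sprN 59 [(nat_lit 13, nat_lit 72036038112465387520), (nat_lit 21, nat_lit 31828151751007010816), (nat_lit 25, nat_lit 165821344519391543296), (nat_lit 36, nat_lit 87102941785227264), (nat_lit 50, nat_lit 96867300094435655680), (nat_lit 57, nat_lit 37286055562797121536)], FastCell.sprN 59 [(nat_lit 11, nat_lit 68408995899519270912), (nat_lit 17, nat_lit 46834919050479403008), (nat_lit 29, nat_lit 25709144763172651008), (nat_lit 35, nat_lit 183675137945224871936)], FastCell.sprN 59 [(nat_lit 11, nat_lit 68408995899519270912), (nat_lit 13, nat_lit 72036038112465387520), (nat_lit 17, nat_lit 46834919050479403008), (nat_lit 21, nat_lit 31828151751007010816),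 (nat_lit 25, nat_lit 165821344519391543296), (nat_lit 29, nat_lit 25709144763172651008), (nat_lit 35, nat_lit 183675137945224871936), (nat_lit 36, nat_lit 87102941785227264), (nat_lit 50, nat_lit 96867300094435655680), (nat_lit 57, nat_lit 37286055562797121536)]), (FastCell.sprN 59 [(nat_lit 17, nat_lit 13465259332060839936), (nat_lit 32, nat_lit 43551470892613632), (nat_lit 49, nat_lit 48433650047217827840), (nat_lit 56, nat_lit 18643027781398560768)], FastCell.sprN 59 [(nat_lit 11, nat_lit 4410715480289968128), (nat_lit 26, nat_lit 23612014312097316864)], FastCell.sprN 59 [(nat_lit 11, nat_lit 4410715480289968128), (nat_lit 17, nat_lit 13465259332060839936), (nat_lit 26, nat_lit 23612014312097316864), (nat_lit 32, nat_lit 43551470892613632), (nat_lit 49, nat_lit 48433650047217827840), (nat_lit 56, nat_lit 18643027781398560768)]), z59, (FastCell.sprN 59 [(nat_lit 6, nat_lit 26070391357177856), (nat_lit 11, nat_lit 120985462042001408)], FastCell.sprN 59 [(nat_lit 1, nat_lit 460240696062771200), (nat_lit 3, nat_lit 441945642915332096), (nat_lit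 19, nat_lit 781946049466990592)], FastCell.sprN 59 [(nat_lit 1, nat_lit 460240696062771200), (nat_lit 3, nat_lit 441945642915332096), (nat_lit 6, nat_lit 26070391357177856), (nat_lit 11, nat_lit 120985462042001408), (nat_lit 19, nat_lit 781946049466990592)]), z59, z59⟩⟩

theorem eFqn : vfam B 3 q sn = some Fqn := by decide +kernel

theorem fitqn : famFits 162 59 4722366482869645213696 47220265384565300831338 337680392383609994192544018 Fqn = true := by decide +kernel

/-- Data. -/
noncomputable def Fqp : VFam := ⟨⟨(FastCell.sprN 59 [(nat_lit 11, nat_lit 4611686018427387904), (nat_lit 49, nat_lit 37518785254858424320), (nat_lit 51, nat_lit 37518785254858424320)], FastCell.sprN 59 [(nat_lit 25, nat_lit 3110137865170845696)], FastCell.sprN 59 [(nat_lit 11, nat_lit 4611686018427387904), (nat_lit 25, nat_lit 3110137865170845696), (nat_lit 49, nat_lit 37518785254858424320), (nat_lit 51, nat_lit 37518785254858424320)]), (FastCell.sprN 59 [(nat_lit 50, nat_lit 75037570509716848640)], FastCell.sprN 59 [(nat_lit 17, nat_lit 6220275730341691392)], FastCell.sprN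 59 [(nat_lit 17, nat_lit 6220275730341691392), (nat_lit 50, nat_lit 75037570509716848640)]), (FastCell.sprN 59 [(nat_lit 37, nat_lit 429453079847370752), (nat_lit 44, nat_lit 205508621739382276096), (nat_lit 49, nat_lit 37518785254858424320)], FastCell.sprN 59 [(nat_lit 11, nat_lit 3110137865170845696)], FastCell.sprN 59 [(nat_lit 11, nat_lit 3110137865170845696), (nat_lit 37, nat_lit 429453079847370752), (nat_lit 44, nat_lit 205508621739382276096), (nat_lit 49, nat_lit 37518785254858424320)]), z59, z59, z59, z59⟩,
  ⟨(FastCell.sprN 59 [(nat_lit 11, nat_lit 3144586734847655936), (nat_lit 17, nat_lit 457106041025331200), (nat_lit 26, nat_lit 2837822685755473920), (nat_lit 45, nat_lit 37518785254858424320)], FastCell.sprN 59 [(nat_lit 25, nat_lit 3110137865170845696), (nat_lit 37, nat_lit 54168020162969600), (nat_lit 46, nat_lit 37518785254858424320)], FastCell.sprN 59 [(nat_lit 11, nat_lit 3144586734847655936), (nat_lit 17, nat_lit 457106041025331200), (nat_lit 25, nat_lit 3110137865170845696), (nat_lit 26, nat_lit 2837822685755473920), (nat_lit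 37, nat_lit 54168020162969600), (nat_lit 45, nat_lit 37518785254858424320), (nat_lit 46, nat_lit 37518785254858424320)]), (FastCell.sprN 59 [(nat_lit 11, nat_lit 68408995899519270912), (nat_lit 17, nat_lit 40614643320137711616), (nat_lit 29, nat_lit 25709144763172651008), (nat_lit 35, nat_lit 183675137945224871936)], FastCell.sprN 59 [(nat_lit 13, nat_lit 72036038112465387520), (nat_lit 21, nat_lit 31828151751007010816), (nat_lit 25, nat_lit 165821344519391543296)], FastCell.sprN 59 [(nat_lit 11, nat_lit 68408995899519270912), (nat_lit 13, nat_lit 72036038112465387520), (nat_lit 17, nat_lit 40614643320137711616), (nat_lit 21, nat_lit 31828151751007010816), (nat_lit 25, nat_lit 165821344519391543296), (nat_lit 29, nat_lit 25709144763172651008), (nat_lit 35, nat_lit 183675137945224871936)]), (FastCell.sprN 59 [(nat_lit 11, nat_lit 1300577615119122432), (nat_lit 26, nat_lit 23612014312097316864)], FastCell.sprN 59 [(nat_lit 17, nat_lit 13465259332060839936)], FastCell.sprN 59 [(nat_lit 11, nat_lit 1300577615119122432), (nat_lit 17, nat_lit 13465259332060839936),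 (nat_lit 26, nat_lit 23612014312097316864)]), z59, (FastCell.sprN 59 [(nat_lit 1, nat_lit 460240696062771200), (nat_lit 3, nat_lit 441945642915332096), (nat_lit 19, nat_lit 781946049466990592)], FastCell.sprN 59 [(nat_lit 6, nat_lit 26070391357177856), (nat_lit 11, nat_lit 120985462042001408)], FastCell.sprN 59 [(nat_lit 1, nat_lit 460240696062771200), (nat_lit 3, nat_lit 441945642915332096), (nat_lit 6, nat_lit 26070391357177856), (nat_lit 11, nat_lit 120985462042001408), (nat_lit 19, nat_lit 781946049466990592)]), z59, z59⟩,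
  ⟨(FastCell.sprN 59 [(nat_lit 11, nat_lit 475954362196164608), (nat_lit 18, nat_lit 226081696867418112), (nat_lit 26, nat_lit 9443110265668239360), (nat_lit 31, nat_lit 114616638648614912)], FastCell.sprN 59 [(nat_lit 23, nat_lit 898923612310863872), (nat_lit 29, nat_lit 9726807620592861184), (nat_lit 37, nat_lit 9904726811554611200), (nat_lit 38, nat_lit 18270171998166450176), (nat_lit 42, nat_lit 15473141751073472512)], FastCell.sprN 59 [(nat_lit 11, nat_lit 475954362196164608), (nat_lit 18, nat_lit 226081696867418112), (nat_lit 23, nat_lit 898923612310863872), (nat_lit 26, nat_lit 9443110265668239360), (nat_lit 29, nat_lit 9726807620592861184), (nat_lit 31, nat_lit 114616638648614912), (nat_lit 37, nat_lit 9904726811554611200), (nat_lit 38, nat_lit 18270171998166450176), (nat_lit 42, nat_lit 15473141751073472512)]), (FastCell.sprN 59 [(nat_lit 5, nat_lit 60678833109282586624), (nat_lit 7, nat_lit 54052767185187635200), (nat_lit 11, nat_lit 1371318123075993600), (nat_lit 19, nat_lit 21620985728080019456), (nat_lit 41, nat_lit 595848221792665600)],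 FastCell.sprN 59 [(nat_lit 6, nat_lit 114722125591246536704), (nat_lit 26, nat_lit 3199742287177318400), (nat_lit 33, nat_lit 25865412292777082880), (nat_lit 48, nat_lit 75037570509716848640)], FastCell.sprN 59 [(nat_lit 5, nat_lit 60678833109282586624), (nat_lit 6, nat_lit 114722125591246536704), (nat_lit 7, nat_lit 54052767185187635200), (nat_lit 11, nat_lit 1371318123075993600), (nat_lit 19, nat_lit 21620985728080019456), (nat_lit 26, nat_lit 3199742287177318400), (nat_lit 33, nat_lit 25865412292777082880), (nat_lit 41, nat_lit 595848221792665600), (nat_lit 48, nat_lit 75037570509716848640)]), (FastCell.sprN 59 [(nat_lit 6, nat_lit 68408995899519270912), (nat_lit 9, nat_lit 1840962784251084800), (nat_lit 10, nat_lit 1767782571661328384), (nat_lit 11, nat_lit 57811827115035721728), (nat_lit 22, nat_lit 360180190562326937600), (nat_lit 23, nat_lit 51418289526345302016), (nat_lit 29, nat_lit 175054834630538559488), (nat_lit 30, nat_lit 3127784197867962368), (nat_lit 31, nat_lit 1131400119653545017344), (nat_lit 37, nat_lit 429453079847370752),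 (nat_lit 44, nat_lit 205508621739382276096), (nat_lit 49, nat_lit 37518785254858424320)], FastCell.sprN 59 [(nat_lit 8, nat_lit 72036038112465387520), (nat_lit 14, nat_lit 47742227626510516224), (nat_lit 15, nat_lit 104281565428711424), (nat_lit 17, nat_lit 331642689038783086592), (nat_lit 19, nat_lit 239431485648317448192), (nat_lit 24, nat_lit 483941848168005632), (nat_lit 26, nat_lit 142151251620481990656), (nat_lit 32, nat_lit 429453079847370752), (nat_lit 34, nat_lit 167109440960622231552), (nat_lit 40, nat_lit 826538120753511923712), (nat_lit 43, nat_lit 205508621739382276096)], FastCell.sprN 59 [(nat_lit 6, nat_lit 68408995899519270912), (nat_lit 8, nat_lit 72036038112465387520), (nat_lit 9, nat_lit 1840962784251084800), (nat_lit 10, nat_lit 1767782571661328384), (nat_lit 11, nat_lit 57811827115035721728), (nat_lit 14, nat_lit 47742227626510516224), (nat_lit 15, nat_lit 104281565428711424), (nat_lit 17, nat_lit 331642689038783086592), (nat_lit 19, nat_lit 239431485648317448192), (nat_lit 22, nat_lit 360180190562326937600), (nat_lit 23,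 nat_lit 51418289526345302016), (nat_lit 24, nat_lit 483941848168005632), (nat_lit 26, nat_lit 142151251620481990656), (nat_lit 29, nat_lit 175054834630538559488), (nat_lit 30, nat_lit 3127784197867962368), (nat_lit 31, nat_lit 1131400119653545017344), (nat_lit 32, nat_lit 429453079847370752), (nat_lit 34, nat_lit 167109440960622231552), (nat_lit 37, nat_lit 429453079847370752), (nat_lit 40, nat_lit 826538120753511923712), (nat_lit 43, nat_lit 205508621739382276096), (nat_lit 44, nat_lit 205508621739382276096), (nat_lit 49, nat_lit 37518785254858424320)]), (FastCell.sprN 59 [(nat_lit 6, nat_lit 867051743412748288), (nat_lit 19, nat_lit 28448004647518470144), (nat_lit 26, nat_lit 31418938441475293184)], FastCell.sprN 59 [(nat_lit 11, nat_lit 13465259332060839936), (nat_lit 33, nat_lit 70836042936291950592)], FastCell.sprN 59 [(nat_lit 6, nat_lit 867051743412748288), (nat_lit 11, nat_lit 13465259332060839936), (nat_lit 19, nat_lit 28448004647518470144), (nat_lit 26, nat_lit 31418938441475293184), (nat_lit 33, nat_lit 70836042936291950592)]), z59,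 (FastCell.sprN 59 [(nat_lit 6, nat_lit 2869691025264214016), (nat_lit 12, nat_lit 2528330887901216768), (nat_lit 19, nat_lit 846898234294009856)], FastCell.sprN 59 [(nat_lit 2, nat_lit 26070391357177856), (nat_lit 9, nat_lit 4419456429153320960), (nat_lit 28, nat_lit 7037514445202915328)], FastCell.sprN 59 [(nat_lit 2, nat_lit 26070391357177856), (nat_lit 6, nat_lit 2869691025264214016), (nat_lit 9, nat_lit 4419456429153320960), (nat_lit 12, nat_lit 2528330887901216768), (nat_lit 19, nat_lit 846898234294009856), (nat_lit 28, nat_lit 7037514445202915328)]), z59⟩,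
  ⟨(FastCell.sprN 59 [(nat_lit 11, nat_lit 1467099283579731968), (nat_lit 37, nat_lit 54168020162969600)], FastCell.sprN 59 [(nat_lit 17, nat_lit 457106041025331200), (nat_lit 26, nat_lit 2837822685755473920)], FastCell.sprN 59 [(nat_lit 11, nat_lit 1467099283579731968), (nat_lit 17, nat_lit 457106041025331200), (nat_lit 26, nat_lit 2837822685755473920), (nat_lit 37, nat_lit 54168020162969600)]), (FastCell.sprN 59 [(nat_lit 13, nat_lit 72036038112465387520), (nat_lit 21, nat_lit 31828151751007010816), (nat_lit 25, nat_lit 165821344519391543296), (nat_lit 50, nat_lit 75037570509716848640)], FastCell.sprN 59 [(nat_lit 11, nat_lit 68408995899519270912), (nat_lit 17, nat_lit 46834919050479403008), (nat_lit 29, nat_lit 25709144763172651008), (nat_lit 35, nat_lit 183675137945224871936)], FastCell.sprN 59 [(nat_lit 11, nat_lit 68408995899519270912), (nat_lit 13, nat_lit 72036038112465387520), (nat_lit 17, nat_lit 46834919050479403008), (nat_lit 21, nat_lit 31828151751007010816), (nat_lit 25, nat_lit 165821344519391543296), (nat_lit 29, nat_lit 25709144763172651008),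 (nat_lit 35, nat_lit 183675137945224871936), (nat_lit 50, nat_lit 75037570509716848640)]), (FastCell.sprN 59 [(nat_lit 17, nat_lit 13465259332060839936), (nat_lit 37, nat_lit 429453079847370752), (nat_lit 44, nat_lit 205508621739382276096), (nat_lit 49, nat_lit 37518785254858424320)], FastCell.sprN 59 [(nat_lit 11, nat_lit 4410715480289968128), (nat_lit 26, nat_lit 23612014312097316864)], FastCell.sprN 59 [(nat_lit 11, nat_lit 4410715480289968128), (nat_lit 17, nat_lit 13465259332060839936), (nat_lit 26, nat_lit 23612014312097316864), (nat_lit 37, nat_lit 429453079847370752), (nat_lit 44, nat_lit 205508621739382276096), (nat_lit 49, nat_lit 37518785254858424320)]), z59, (FastCell.sprN 59 [(nat_lit 6, nat_lit 26070391357177856), (nat_lit 11, nat_lit 120985462042001408)], FastCell.sprN 59 [(nat_lit 1, nat_lit 460240696062771200), (nat_lit 3, nat_lit 441945642915332096), (nat_lit 19, nat_lit 781946049466990592)], FastCell.sprN 59 [(nat_lit 1, nat_lit 460240696062771200), (nat_lit 3, nat_lit 441945642915332096), (nat_lit 6, nat_lit 26070391357177856),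 (nat_lit 11, nat_lit 120985462042001408), (nat_lit 19, nat_lit 781946049466990592)]), z59, z59⟩⟩

theorem eFqp : vfam B 3 q sp = some Fqp := by decide +kernel

theorem fitqp : famFits 162 59 4722366482869645213696 47220265384565300831338 337680392383609994192544018 Fqp = true := by decide +kernel

/-- Data. -/
noncomputable def Frn : VFam := ⟨⟨(FastCell.sprN 59 [(nat_lit 11, nat_lit 4611686018427387904), (nat_lit 32, nat_lit 52261756764352512), (nat_lit 39, nat_lit 43551470892613632), (nat_lit 49, nat_lit 58120370818675773440), (nat_lit 51, nat_lit 48433650047217827840), (nat_lit 56, nat_lit 22371629781802917888), (nat_lit 58, nat_lit 18643027781398560768)], FastCell.sprN 59 [(nat_lit 25, nat_lit 2164838262223405056)], FastCell.sprN 59 [(nat_lit 11, nat_lit 4611686018427387904), (nat_lit 25, nat_lit 2164838262223405056), (nat_lit 32, nat_lit 52261756764352512), (nat_lit 39, nat_lit 43551470892613632), (nat_lit 49, nat_lit 58120370818675773440), (nat_lit 51, nat_lit 48433650047217827840), (nat_lit 56, nat_lit 22371629781802917888), (nat_lit 58,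 nat_lit 18643027781398560768)]), (FastCell.sprN 59 [(nat_lit 36, nat_lit 87102941785227264), (nat_lit 50, nat_lit 96867300094435655680), (nat_lit 57, nat_lit 37286055562797121536)], FastCell.sprN 59 [(nat_lit 17, nat_lit 4329676524446810112)], FastCell.sprN 59 [(nat_lit 17, nat_lit 4329676524446810112), (nat_lit 36, nat_lit 87102941785227264), (nat_lit 50, nat_lit 96867300094435655680), (nat_lit 57, nat_lit 37286055562797121536)]), (FastCell.sprN 59 [(nat_lit 32, nat_lit 43551470892613632), (nat_lit 49, nat_lit 48433650047217827840), (nat_lit 56, nat_lit 18643027781398560768)], FastCell.sprN 59 [(nat_lit 11, nat_lit 2164838262223405056)], FastCell.sprN 59 [(nat_lit 11, nat_lit 2164838262223405056), (nat_lit 32, nat_lit 43551470892613632), (nat_lit 49, nat_lit 48433650047217827840), (nat_lit 56, nat_lit 18643027781398560768)]), z59, z59, z59, z59⟩,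
  ⟨(FastCell.sprN 59 [(nat_lit 11, nat_lit 3778605910474096640), (nat_lit 16, nat_lit 43551470892613632), (nat_lit 17, nat_lit 181978876728049664), (nat_lit 26, nat_lit 2820286501789630464), (nat_lit 37, nat_lit 1309548972871778304), (nat_lit 45, nat_lit 48433650047217827840), (nat_lit 52, nat_lit 18643027781398560768)], FastCell.sprN 59 [(nat_lit 18, nat_lit 52261756764352512), (nat_lit 25, nat_lit 2164838262223405056), (nat_lit 46, nat_lit 58120370818675773440), (nat_lit 53, nat_lit 22371629781802917888)], FastCell.sprN 59 [(nat_lit 11, nat_lit 3778605910474096640), (nat_lit 16, nat_lit 43551470892613632), (nat_lit 17, nat_lit 181978876728049664), (nat_lit 18, nat_lit 52261756764352512), (nat_lit 25, nat_lit 2164838262223405056), (nat_lit 26, nat_lit 2820286501789630464), (nat_lit 37, nat_lit 1309548972871778304), (nat_lit 45, nat_lit 48433650047217827840), (nat_lit 46, nat_lit 58120370818675773440), (nat_lit 52, nat_lit 18643027781398560768), (nat_lit 53, nat_lit 22371629781802917888)]), (FastCell.sprN 59 [(nat_lit 13, nat_lit 233180244868071424),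 (nat_lit 17, nat_lit 69970750869971402752), (nat_lit 29, nat_lit 73767885029916016640), (nat_lit 35, nat_lit 125201616284392882176)], FastCell.sprN 59 [(nat_lit 11, nat_lit 1367588297240477696), (nat_lit 21, nat_lit 62907560532599898112), (nat_lit 25, nat_lit 117537120408785911808)], FastCell.sprN 59 [(nat_lit 11, nat_lit 1367588297240477696), (nat_lit 13, nat_lit 233180244868071424), (nat_lit 17, nat_lit 69970750869971402752), (nat_lit 21, nat_lit 62907560532599898112), (nat_lit 25, nat_lit 117537120408785911808), (nat_lit 29, nat_lit 73767885029916016640), (nat_lit 35, nat_lit 125201616284392882176)]), (FastCell.sprN 59 [(nat_lit 26, nat_lit 8279718645479768064)], FastCell.sprN 59 [(nat_lit 17, nat_lit 2817141306902446080)], FastCell.sprN 59 [(nat_lit 17, nat_lit 2817141306902446080), (nat_lit 26, nat_lit 8279718645479768064)]), z59, (FastCell.sprN 59 [(nat_lit 1, nat_lit 558044284725493760), (nat_lit 6, nat_lit 12292973790232576), (nat_lit 19, nat_lit 51863465265987584)], FastCell.sprN 59 [(nat_lit 3, nat_lit 274427714914484224), (nat_lit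 11, nat_lit 718664155946549248)], FastCell.sprN 59 [(nat_lit 1, nat_lit 558044284725493760), (nat_lit 3, nat_lit 274427714914484224), (nat_lit 6, nat_lit 12292973790232576), (nat_lit 11, nat_lit 718664155946549248), (nat_lit 19, nat_lit 51863465265987584)]), z59, z59⟩,
  ⟨(FastCell.sprN 59 [(nat_lit 11, nat_lit 51341119933382656), (nat_lit 18, nat_lit 50689204027392), (nat_lit 23, nat_lit 798894529435402240), (nat_lit 29, nat_lit 9554621783622025216), (nat_lit 31, nat_lit 60535413332246528), (nat_lit 37, nat_lit 13550417448229928960), (nat_lit 38, nat_lit 23765038867589103616), (nat_lit 42, nat_lit 19731103747363831808)], FastCell.sprN 59 [(nat_lit 20, nat_lit 8710285871738880), (nat_lit 26, nat_lit 13088067606470983680), (nat_lit 47, nat_lit 9686720771457945600), (nat_lit 54, nat_lit 3728602000404357120)], FastCell.sprN 59 [(nat_lit 11, nat_lit 51341119933382656), (nat_lit 18, nat_lit 50689204027392), (nat_lit 20, nat_lit 8710285871738880), (nat_lit 23, nat_lit 798894529435402240), (nat_lit 26, nat_lit 13088067606470983680), (nat_lit 29, nat_lit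 9554621783622025216), (nat_lit 31, nat_lit 60535413332246528), (nat_lit 37, nat_lit 13550417448229928960), (nat_lit 38, nat_lit 23765038867589103616), (nat_lit 42, nat_lit 19731103747363831808), (nat_lit 47, nat_lit 9686720771457945600), (nat_lit 54, nat_lit 3728602000404357120)]), (FastCell.sprN 59 [(nat_lit 5, nat_lit 56772288821443166208), (nat_lit 7, nat_lit 47435669964555550720), (nat_lit 11, nat_lit 545936630184148992), (nat_lit 19, nat_lit 17112706762831560704)], FastCell.sprN 59 [(nat_lit 6, nat_lit 104206331634417401856), (nat_lit 26, nat_lit 1273852137096347648), (nat_lit 27, nat_lit 87102941785227264), (nat_lit 33, nat_lit 17525284678876004352), (nat_lit 41, nat_lit 14405038701589561344), (nat_lit 48, nat_lit 96867300094435655680), (nat_lit 55, nat_lit 37286055562797121536)], FastCell.sprN 59 [(nat_lit 5, nat_lit 56772288821443166208), (nat_lit 6, nat_lit 104206331634417401856), (nat_lit 7, nat_lit 47435669964555550720), (nat_lit 11, nat_lit 545936630184148992), (nat_lit 19, nat_lit 17112706762831560704), (nat_lit 26, nat_lit 1273852137096347648),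 (nat_lit 27, nat_lit 87102941785227264), (nat_lit 33, nat_lit 17525284678876004352), (nat_lit 41, nat_lit 14405038701589561344), (nat_lit 48, nat_lit 96867300094435655680), (nat_lit 55, nat_lit 37286055562797121536)]), (FastCell.sprN 59 [(nat_lit 8, nat_lit 233180244868071424), (nat_lit 9, nat_lit 2232177138901975040), (nat_lit 11, nat_lit 102791288042733699072), (nat_lit 15, nat_lit 49171895160930304), (nat_lit 19, nat_lit 4786559040341671936), (nat_lit 23, nat_lit 147535770059832033280), (nat_lit 29, nat_lit 345991582929299439616), (nat_lit 30, nat_lit 207453861063950336), (nat_lit 31, nat_lit 786984770283929337856), (nat_lit 32, nat_lit 43551470892613632), (nat_lit 49, nat_lit 48433650047217827840), (nat_lit 56, nat_lit 18643027781398560768)], FastCell.sprN 59 [(nat_lit 6, nat_lit 1367588297240477696), (nat_lit 10, nat_lit 1097710859657936896), (nat_lit 14, nat_lit 94361340798899847168), (nat_lit 17, nat_lit 235074240817571823616), (nat_lit 22, nat_lit 1165901224340357120), (nat_lit 24, nat_lit 2874656623786196992), (nat_lit 26, nat_lit 244897628044899909632),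 (nat_lit 34, nat_lit 479491252694454108160), (nat_lit 40, nat_lit 563407273279767969792)], FastCell.sprN 59 [(nat_lit 6, nat_lit 1367588297240477696), (nat_lit 8, nat_lit 233180244868071424), (nat_lit 9, nat_lit 2232177138901975040), (nat_lit 10, nat_lit 1097710859657936896), (nat_lit 11, nat_lit 102791288042733699072), (nat_lit 14, nat_lit 94361340798899847168), (nat_lit 15, nat_lit 49171895160930304), (nat_lit 17, nat_lit 235074240817571823616), (nat_lit 19, nat_lit 4786559040341671936), (nat_lit 22, nat_lit 1165901224340357120), (nat_lit 23, nat_lit 147535770059832033280), (nat_lit 24, nat_lit 2874656623786196992), (nat_lit 26, nat_lit 244897628044899909632), (nat_lit 29, nat_lit 345991582929299439616), (nat_lit 30, nat_lit 207453861063950336), (nat_lit 31, nat_lit 786984770283929337856), (nat_lit 32, nat_lit 43551470892613632), (nat_lit 34, nat_lit 479491252694454108160), (nat_lit 40, nat_lit 563407273279767969792), (nat_lit 49, nat_lit 48433650047217827840), (nat_lit 56, nat_lit 18643027781398560768)]), (FastCell.sprN 59 [(nat_lit 19, nat_lit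 11039624860639690752), (nat_lit 26, nat_lit 6573329716105707520)], FastCell.sprN 59 [(nat_lit 11, nat_lit 2817141306902446080), (nat_lit 33, nat_lit 24839155936439304192)], FastCell.sprN 59 [(nat_lit 11, nat_lit 2817141306902446080), (nat_lit 19, nat_lit 11039624860639690752), (nat_lit 26, nat_lit 6573329716105707520), (nat_lit 33, nat_lit 24839155936439304192)]), z59, (FastCell.sprN 59 [(nat_lit 2, nat_lit 12292973790232576), (nat_lit 9, nat_lit 2744277149144842240), (nat_lit 12, nat_lit 69539579266334720), (nat_lit 19, nat_lit 5030649091625844736)], FastCell.sprN 59 [(nat_lit 6, nat_lit 2494805756168110080), (nat_lit 28, nat_lit 466771187393888256)], FastCell.sprN 59 [(nat_lit 2, nat_lit 12292973790232576), (nat_lit 6, nat_lit 2494805756168110080), (nat_lit 9, nat_lit 2744277149144842240), (nat_lit 12, nat_lit 69539579266334720), (nat_lit 19, nat_lit 5030649091625844736), (nat_lit 28, nat_lit 466771187393888256)]), z59⟩,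
  ⟨(FastCell.sprN 59 [(nat_lit 11, nat_lit 833080107953291264), (nat_lit 18, nat_lit 8710285871738880), (nat_lit 32, nat_lit 8710285871738880), (nat_lit 46, nat_lit 9686720771457945600), (nat_lit 49, nat_lit 9686720771457945600), (nat_lit 53, nat_lit 3728602000404357120), (nat_lit 56, nat_lit 3728602000404357120)], FastCell.sprN 59 [(nat_lit 17, nat_lit 181978876728049664), (nat_lit 26, nat_lit 2820286501789630464), (nat_lit 37, nat_lit 1309548972871778304)], FastCell.sprN 59 [(nat_lit 11, nat_lit 833080107953291264), (nat_lit 17, nat_lit 181978876728049664), (nat_lit 18, nat_lit 8710285871738880), (nat_lit 26, nat_lit 2820286501789630464), (nat_lit 32, nat_lit 8710285871738880), (nat_lit 37, nat_lit 1309548972871778304), (nat_lit 46, nat_lit 9686720771457945600), (nat_lit 49, nat_lit 9686720771457945600), (nat_lit 53, nat_lit 3728602000404357120), (nat_lit 56, nat_lit 3728602000404357120)]), (FastCell.sprN 59 [(nat_lit 11, nat_lit 1367588297240477696), (nat_lit 21, nat_lit 62907560532599898112), (nat_lit 25, nat_lit 117537120408785911808),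 (nat_lit 36, nat_lit 87102941785227264), (nat_lit 50, nat_lit 96867300094435655680), (nat_lit 57, nat_lit 37286055562797121536)], FastCell.sprN 59 [(nat_lit 13, nat_lit 233180244868071424), (nat_lit 17, nat_lit 74300427394418212864), (nat_lit 29, nat_lit 73767885029916016640), (nat_lit 35, nat_lit 125201616284392882176)], FastCell.sprN 59 [(nat_lit 11, nat_lit 1367588297240477696), (nat_lit 13, nat_lit 233180244868071424), (nat_lit 17, nat_lit 74300427394418212864), (nat_lit 21, nat_lit 62907560532599898112), (nat_lit 25, nat_lit 117537120408785911808), (nat_lit 29, nat_lit 73767885029916016640), (nat_lit 35, nat_lit 125201616284392882176), (nat_lit 36, nat_lit 87102941785227264), (nat_lit 50, nat_lit 96867300094435655680), (nat_lit 57, nat_lit 37286055562797121536)]), (FastCell.sprN 59 [(nat_lit 17, nat_lit 2817141306902446080), (nat_lit 32, nat_lit 43551470892613632), (nat_lit 49, nat_lit 48433650047217827840), (nat_lit 56, nat_lit 18643027781398560768)], FastCell.sprN 59 [(nat_lit 11, nat_lit 2164838262223405056), (nat_lit 26, nat_lit 8279718645479768064)],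 FastCell.sprN 59 [(nat_lit 11, nat_lit 2164838262223405056), (nat_lit 17, nat_lit 2817141306902446080), (nat_lit 26, nat_lit 8279718645479768064), (nat_lit 32, nat_lit 43551470892613632), (nat_lit 49, nat_lit 48433650047217827840), (nat_lit 56, nat_lit 18643027781398560768)]), z59, (FastCell.sprN 59 [(nat_lit 3, nat_lit 274427714914484224), (nat_lit 11, nat_lit 718664155946549248)], FastCell.sprN 59 [(nat_lit 1, nat_lit 558044284725493760), (nat_lit 6, nat_lit 12292973790232576), (nat_lit 19, nat_lit 51863465265987584)], FastCell.sprN 59 [(nat_lit 1, nat_lit 558044284725493760), (nat_lit 3, nat_lit 274427714914484224), (nat_lit 6, nat_lit 12292973790232576), (nat_lit 11, nat_lit 718664155946549248), (nat_lit 19, nat_lit 51863465265987584)]), z59, z59⟩⟩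

theorem eFrn : vfam B 3 r sn = some Frn := by decide +kernel

theorem fitrn : famFits 162 59 4722366482869645213696 47220265384565300831338 337680392383609994192544018 Frn = true := by decide +kernel

/-- Data. -/
noncomputable def Frp : VFam := ⟨⟨(FastCell.sprN 59 [(nat_lit 11, nat_lit 4611686018427387904), (nat_lit 49, nat_lit 45022535149689733120), (nat_lit 51, nat_lit 37518785254858424320)], FastCell.sprN 59 [(nat_lit 25, nat_lit 2164838262223405056)], FastCell.sprN 59 [(nat_lit 11, nat_lit 4611686018427387904), (nat_lit 25, nat_lit 2164838262223405056), (nat_lit 49, nat_lit 45022535149689733120), (nat_lit 51, nat_lit 37518785254858424320)]), (FastCell.sprN 59 [(nat_lit 50, nat_lit 75037570509716848640)], FastCell.sprN 59 [(nat_lit 17, nat_lit 4329676524446810112)], FastCell.sprN 59 [(nat_lit 17, nat_lit 4329676524446810112), (nat_lit 50, nat_lit 75037570509716848640)]), (FastCell.sprN 59 [(nat_lit 37, nat_lit 429453079847370752), (nat_lit 44, nat_lit 205508621739382276096), (nat_lit 49, nat_lit 37518785254858424320)], FastCell.sprN 59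 [(nat_lit 11, nat_lit 2164838262223405056)], FastCell.sprN 59 [(nat_lit 11, nat_lit 2164838262223405056), (nat_lit 37, nat_lit 429453079847370752), (nat_lit 44, nat_lit 205508621739382276096), (nat_lit 49, nat_lit 37518785254858424320)]), z59, z59, z59, z59⟩,
  ⟨(FastCell.sprN 59 [(nat_lit 11, nat_lit 3778605910474096640), (nat_lit 17, nat_lit 181978876728049664), (nat_lit 26, nat_lit 2820286501789630464), (nat_lit 37, nat_lit 1309548972871778304), (nat_lit 45, nat_lit 37518785254858424320)], FastCell.sprN 59 [(nat_lit 25, nat_lit 2164838262223405056), (nat_lit 46, nat_lit 45022535149689733120)], FastCell.sprN 59 [(nat_lit 11, nat_lit 3778605910474096640), (nat_lit 17, nat_lit 181978876728049664), (nat_lit 25, nat_lit 2164838262223405056), (nat_lit 26, nat_lit 2820286501789630464), (nat_lit 37, nat_lit 1309548972871778304), (nat_lit 45, nat_lit 37518785254858424320), (nat_lit 46, nat_lit 45022535149689733120)]), (FastCell.sprN 59 [(nat_lit 13, nat_lit 233180244868071424), (nat_lit 17, nat_lit 69970750869971402752), (nat_lit 29, nat_lit 73767885029916016640),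 (nat_lit 35, nat_lit 125201616284392882176)], FastCell.sprN 59 [(nat_lit 11, nat_lit 1367588297240477696), (nat_lit 21, nat_lit 62907560532599898112), (nat_lit 25, nat_lit 117537120408785911808)], FastCell.sprN 59 [(nat_lit 11, nat_lit 1367588297240477696), (nat_lit 13, nat_lit 233180244868071424), (nat_lit 17, nat_lit 69970750869971402752), (nat_lit 21, nat_lit 62907560532599898112), (nat_lit 25, nat_lit 117537120408785911808), (nat_lit 29, nat_lit 73767885029916016640), (nat_lit 35, nat_lit 125201616284392882176)]), (FastCell.sprN 59 [(nat_lit 26, nat_lit 8279718645479768064)], FastCell.sprN 59 [(nat_lit 17, nat_lit 2817141306902446080)], FastCell.sprN 59 [(nat_lit 17, nat_lit 2817141306902446080), (nat_lit 26, nat_lit 8279718645479768064)]), z59, (FastCell.sprN 59 [(nat_lit 1, nat_lit 558044284725493760), (nat_lit 6, nat_lit 12292973790232576), (nat_lit 19, nat_lit 51863465265987584)], FastCell.sprN 59 [(nat_lit 3, nat_lit 274427714914484224), (nat_lit 11, nat_lit 718664155946549248)], FastCell.sprN 59 [(nat_lit 1, nat_lit 558044284725493760),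 (nat_lit 3, nat_lit 274427714914484224), (nat_lit 6, nat_lit 12292973790232576), (nat_lit 11, nat_lit 718664155946549248), (nat_lit 19, nat_lit 51863465265987584)]), z59, z59⟩,
  ⟨(FastCell.sprN 59 [(nat_lit 11, nat_lit 51341119933382656), (nat_lit 18, nat_lit 50689204027392), (nat_lit 23, nat_lit 798894529435402240), (nat_lit 29, nat_lit 9554621783622025216), (nat_lit 31, nat_lit 60535413332246528), (nat_lit 37, nat_lit 13550417448229928960), (nat_lit 38, nat_lit 23765038867589103616), (nat_lit 42, nat_lit 19731103747363831808)], FastCell.sprN 59 [(nat_lit 26, nat_lit 13088067606470983680), (nat_lit 47, nat_lit 7503749894831308800)], FastCell.sprN 59 [(nat_lit 11, nat_lit 51341119933382656), (nat_lit 18, nat_lit 50689204027392), (nat_lit 23, nat_lit 798894529435402240), (nat_lit 26, nat_lit 13088067606470983680), (nat_lit 29, nat_lit 9554621783622025216), (nat_lit 31, nat_lit 60535413332246528), (nat_lit 37, nat_lit 13550417448229928960), (nat_lit 38, nat_lit 23765038867589103616), (nat_lit 42, nat_lit 19731103747363831808), (nat_lit 47, nat_lit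 7503749894831308800)]), (FastCell.sprN 59 [(nat_lit 5, nat_lit 56772288821443166208), (nat_lit 7, nat_lit 47435669964555550720), (nat_lit 11, nat_lit 545936630184148992), (nat_lit 19, nat_lit 17112706762831560704)], FastCell.sprN 59 [(nat_lit 6, nat_lit 104206331634417401856), (nat_lit 26, nat_lit 1273852137096347648), (nat_lit 33, nat_lit 17525284678876004352), (nat_lit 41, nat_lit 14405038701589561344), (nat_lit 48, nat_lit 75037570509716848640)], FastCell.sprN 59 [(nat_lit 5, nat_lit 56772288821443166208), (nat_lit 6, nat_lit 104206331634417401856), (nat_lit 7, nat_lit 47435669964555550720), (nat_lit 11, nat_lit 545936630184148992), (nat_lit 19, nat_lit 17112706762831560704), (nat_lit 26, nat_lit 1273852137096347648), (nat_lit 33, nat_lit 17525284678876004352), (nat_lit 41, nat_lit 14405038701589561344), (nat_lit 48, nat_lit 75037570509716848640)]), (FastCell.sprN 59 [(nat_lit 8, nat_lit 233180244868071424), (nat_lit 9, nat_lit 2232177138901975040), (nat_lit 11, nat_lit 102791288042733699072), (nat_lit 15, nat_lit 49171895160930304), (nat_lit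 19, nat_lit 4786559040341671936), (nat_lit 23, nat_lit 147535770059832033280), (nat_lit 29, nat_lit 345991582929299439616), (nat_lit 30, nat_lit 207453861063950336), (nat_lit 31, nat_lit 786984770283929337856), (nat_lit 37, nat_lit 429453079847370752), (nat_lit 44, nat_lit 205508621739382276096), (nat_lit 49, nat_lit 37518785254858424320)], FastCell.sprN 59 [(nat_lit 6, nat_lit 1367588297240477696), (nat_lit 10, nat_lit 1097710859657936896), (nat_lit 14, nat_lit 94361340798899847168), (nat_lit 17, nat_lit 235074240817571823616), (nat_lit 22, nat_lit 1165901224340357120), (nat_lit 24, nat_lit 2874656623786196992), (nat_lit 26, nat_lit 244897628044899909632), (nat_lit 32, nat_lit 429453079847370752), (nat_lit 34, nat_lit 479491252694454108160), (nat_lit 40, nat_lit 563407273279767969792), (nat_lit 43, nat_lit 205508621739382276096)], FastCell.sprN 59 [(nat_lit 6, nat_lit 1367588297240477696), (nat_lit 8, nat_lit 233180244868071424), (nat_lit 9, nat_lit 2232177138901975040), (nat_lit 10, nat_lit 1097710859657936896), (nat_lit 11, nat_lit 102791288042733699072),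 (nat_lit 14, nat_lit 94361340798899847168), (nat_lit 15, nat_lit 49171895160930304), (nat_lit 17, nat_lit 235074240817571823616), (nat_lit 19, nat_lit 4786559040341671936), (nat_lit 22, nat_lit 1165901224340357120), (nat_lit 23, nat_lit 147535770059832033280), (nat_lit 24, nat_lit 2874656623786196992), (nat_lit 26, nat_lit 244897628044899909632), (nat_lit 29, nat_lit 345991582929299439616), (nat_lit 30, nat_lit 207453861063950336), (nat_lit 31, nat_lit 786984770283929337856), (nat_lit 32, nat_lit 429453079847370752), (nat_lit 34, nat_lit 479491252694454108160), (nat_lit 37, nat_lit 429453079847370752), (nat_lit 40, nat_lit 563407273279767969792), (nat_lit 43, nat_lit 205508621739382276096), (nat_lit 44, nat_lit 205508621739382276096), (nat_lit 49, nat_lit 37518785254858424320)]), (FastCell.sprN 59 [(nat_lit 19, nat_lit 11039624860639690752), (nat_lit 26, nat_lit 6573329716105707520)], FastCell.sprN 59 [(nat_lit 11, nat_lit 2817141306902446080), (nat_lit 33, nat_lit 24839155936439304192)], FastCell.sprN 59 [(nat_lit 11, nat_lit 2817141306902446080),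 (nat_lit 19, nat_lit 11039624860639690752), (nat_lit 26, nat_lit 6573329716105707520), (nat_lit 33, nat_lit 24839155936439304192)]), z59, (FastCell.sprN 59 [(nat_lit 2, nat_lit 12292973790232576), (nat_lit 9, nat_lit 2744277149144842240), (nat_lit 12, nat_lit 69539579266334720), (nat_lit 19, nat_lit 5030649091625844736)], FastCell.sprN 59 [(nat_lit 6, nat_lit 2494805756168110080), (nat_lit 28, nat_lit 466771187393888256)], FastCell.sprN 59 [(nat_lit 2, nat_lit 12292973790232576), (nat_lit 6, nat_lit 2494805756168110080), (nat_lit 9, nat_lit 2744277149144842240), (nat_lit 12, nat_lit 69539579266334720), (nat_lit 19, nat_lit 5030649091625844736), (nat_lit 28, nat_lit 466771187393888256)]), z59⟩,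
  ⟨(FastCell.sprN 59 [(nat_lit 11, nat_lit 833080107953291264), (nat_lit 46, nat_lit 7503749894831308800), (nat_lit 49, nat_lit 7503749894831308800)], FastCell.sprN 59 [(nat_lit 17, nat_lit 181978876728049664), (nat_lit 26, nat_lit 2820286501789630464), (nat_lit 37, nat_lit 1309548972871778304)], FastCell.sprN 59 [(nat_lit 11, nat_lit 833080107953291264), (nat_lit 17, nat_lit 181978876728049664), (nat_lit 26, nat_lit 2820286501789630464), (nat_lit 37, nat_lit 1309548972871778304), (nat_lit 46, nat_lit 7503749894831308800), (nat_lit 49, nat_lit 7503749894831308800)]), (FastCell.sprN 59 [(nat_lit 11, nat_lit 1367588297240477696), (nat_lit 21, nat_lit 62907560532599898112), (nat_lit 25, nat_lit 117537120408785911808), (nat_lit 50, nat_lit 75037570509716848640)], FastCell.sprN 59 [(nat_lit 13, nat_lit 233180244868071424), (nat_lit 17, nat_lit 74300427394418212864), (nat_lit 29, nat_lit 73767885029916016640), (nat_lit 35, nat_lit 125201616284392882176)], FastCell.sprN 59 [(nat_lit 11, nat_lit 1367588297240477696), (nat_lit 13, nat_lit 233180244868071424),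 (nat_lit 17, nat_lit 74300427394418212864), (nat_lit 21, nat_lit 62907560532599898112), (nat_lit 25, nat_lit 117537120408785911808), (nat_lit 29, nat_lit 73767885029916016640), (nat_lit 35, nat_lit 125201616284392882176), (nat_lit 50, nat_lit 75037570509716848640)]), (FastCell.sprN 59 [(nat_lit 17, nat_lit 2817141306902446080), (nat_lit 37, nat_lit 429453079847370752), (nat_lit 44, nat_lit 205508621739382276096), (nat_lit 49, nat_lit 37518785254858424320)], FastCell.sprN 59 [(nat_lit 11, nat_lit 2164838262223405056), (nat_lit 26, nat_lit 8279718645479768064)], FastCell.sprN 59 [(nat_lit 11, nat_lit 2164838262223405056), (nat_lit 17, nat_lit 2817141306902446080), (nat_lit 26, nat_lit 8279718645479768064), (nat_lit 37, nat_lit 429453079847370752), (nat_lit 44, nat_lit 205508621739382276096), (nat_lit 49, nat_lit 37518785254858424320)]), z59, (FastCell.sprN 59 [(nat_lit 3, nat_lit 274427714914484224), (nat_lit 11, nat_lit 718664155946549248)], FastCell.sprN 59 [(nat_lit 1, nat_lit 558044284725493760), (nat_lit 6, nat_lit 12292973790232576), (nat_lit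 19, nat_lit 51863465265987584)], FastCell.sprN 59 [(nat_lit 1, nat_lit 558044284725493760), (nat_lit 3, nat_lit 274427714914484224), (nat_lit 6, nat_lit 12292973790232576), (nat_lit 11, nat_lit 718664155946549248), (nat_lit 19, nat_lit 51863465265987584)]), z59, z59⟩⟩

theorem eFrp : vfam B 3 r sp = some Frp := by decide +kernel

theorem fitrp : famFits 162 59 4722366482869645213696 47220265384565300831338 337680392383609994192544018 Frp = true := by decide +kernel

/-- Data. -/
noncomputable def Fsn : VFam := ⟨⟨(FastCell.sprN 59 [(nat_lit 11, nat_lit 4611686018427387904), (nat_lit 32, nat_lit 52261756764352512), (nat_lit 39, nat_lit 43551470892613632), (nat_lit 49, nat_lit 58120370818675773440), (nat_lit 51, nat_lit 48433650047217827840), (nat_lit 56, nat_lit 22371629781802917888), (nat_lit 58, nat_lit 18643027781398560768)], FastCell.sprN 59 [(nat_lit 25, nat_lit 3110137865170845696)], FastCell.sprN 59 [(nat_lit 11, nat_lit 4611686018427387904), (nat_lit 25, nat_lit 3110137865170845696), (nat_lit 32, nat_lit 52261756764352512), (nat_lit 39,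 nat_lit 43551470892613632), (nat_lit 49, nat_lit 58120370818675773440), (nat_lit 51, nat_lit 48433650047217827840), (nat_lit 56, nat_lit 22371629781802917888), (nat_lit 58, nat_lit 18643027781398560768)]), (FastCell.sprN 59 [(nat_lit 36, nat_lit 87102941785227264), (nat_lit 50, nat_lit 96867300094435655680), (nat_lit 57, nat_lit 37286055562797121536)], FastCell.sprN 59 [(nat_lit 17, nat_lit 6220275730341691392)], FastCell.sprN 59 [(nat_lit 17, nat_lit 6220275730341691392), (nat_lit 36, nat_lit 87102941785227264), (nat_lit 50, nat_lit 96867300094435655680), (nat_lit 57, nat_lit 37286055562797121536)]), (FastCell.sprN 59 [(nat_lit 32, nat_lit 43551470892613632), (nat_lit 49, nat_lit 48433650047217827840), (nat_lit 56, nat_lit 18643027781398560768)], FastCell.sprN 59 [(nat_lit 11, nat_lit 3110137865170845696)], FastCell.sprN 59 [(nat_lit 11, nat_lit 3110137865170845696), (nat_lit 32, nat_lit 43551470892613632), (nat_lit 49, nat_lit 48433650047217827840), (nat_lit 56, nat_lit 18643027781398560768)]), z59, z59, z59, z59⟩,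
  ⟨(FastCell.sprN 59 [(nat_lit 11, nat_lit 3263761310902386688), (nat_lit 16, nat_lit 43551470892613632), (nat_lit 17, nat_lit 681186446341570560), (nat_lit 26, nat_lit 2328202058127114240), (nat_lit 37, nat_lit 1387634214207225856), (nat_lit 45, nat_lit 48433650047217827840), (nat_lit 52, nat_lit 18643027781398560768)], FastCell.sprN 59 [(nat_lit 18, nat_lit 52261756764352512), (nat_lit 25, nat_lit 3110137865170845696), (nat_lit 46, nat_lit 58120370818675773440), (nat_lit 53, nat_lit 22371629781802917888)], FastCell.sprN 59 [(nat_lit 11, nat_lit 3263761310902386688), (nat_lit 16, nat_lit 43551470892613632), (nat_lit 17, nat_lit 681186446341570560), (nat_lit 18, nat_lit 52261756764352512), (nat_lit 25, nat_lit 3110137865170845696), (nat_lit 26, nat_lit 2328202058127114240), (nat_lit 37, nat_lit 1387634214207225856), (nat_lit 45, nat_lit 48433650047217827840), (nat_lit 46, nat_lit 58120370818675773440), (nat_lit 52, nat_lit 18643027781398560768), (nat_lit 53, nat_lit 22371629781802917888)]), (FastCell.sprN 59 [(nat_lit 11, nat_lit 66939030206305796096),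 (nat_lit 17, nat_lit 76684894122197123072), (nat_lit 29, nat_lit 58399183271656161280), (nat_lit 35, nat_lit 230254792673245265920)], FastCell.sprN 59 [(nat_lit 13, nat_lit 70775330544537305088), (nat_lit 21, nat_lit 64940153863413956608), (nat_lit 25, nat_lit 219735546857642786816)], FastCell.sprN 59 [(nat_lit 11, nat_lit 66939030206305796096), (nat_lit 13, nat_lit 70775330544537305088), (nat_lit 17, nat_lit 76684894122197123072), (nat_lit 21, nat_lit 64940153863413956608), (nat_lit 25, nat_lit 219735546857642786816), (nat_lit 29, nat_lit 58399183271656161280), (nat_lit 35, nat_lit 230254792673245265920)]), (FastCell.sprN 59 [(nat_lit 11, nat_lit 747021749459091456), (nat_lit 26, nat_lit 17999352934101417984)], FastCell.sprN 59 [(nat_lit 17, nat_lit 10424100927660097536)], FastCell.sprN 59 [(nat_lit 11, nat_lit 747021749459091456), (nat_lit 17, nat_lit 10424100927660097536), (nat_lit 26, nat_lit 17999352934101417984)]), z59, (FastCell.sprN 59 [(nat_lit 1, nat_lit 638886607302164480), (nat_lit 3, nat_lit 320459391981584384), (nat_lit 11, nat_lit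 405979870246469632)], FastCell.sprN 59 [(nat_lit 6, nat_lit 234696580924440576), (nat_lit 19, nat_lit 360135258332463104)], FastCell.sprN 59 [(nat_lit 1, nat_lit 638886607302164480), (nat_lit 3, nat_lit 320459391981584384), (nat_lit 6, nat_lit 234696580924440576), (nat_lit 11, nat_lit 405979870246469632), (nat_lit 19, nat_lit 360135258332463104)]), z59, z59⟩,
  ⟨(FastCell.sprN 59 [(nat_lit 11, nat_lit 399763803807416320), (nat_lit 23, nat_lit 573899688000880640), (nat_lit 29, nat_lit 8459926681421873152), (nat_lit 31, nat_lit 88146805669232640), (nat_lit 37, nat_lit 12978212478088380416), (nat_lit 38, nat_lit 22320110133250621440), (nat_lit 42, nat_lit 18983377302219390976)], FastCell.sprN 59 [(nat_lit 18, nat_lit 69862507119902720), (nat_lit 20, nat_lit 8710285871738880), (nat_lit 26, nat_lit 12849970742887972864), (nat_lit 47, nat_lit 9686720771457945600), (nat_lit 54, nat_lit 3728602000404357120)], FastCell.sprN 59 [(nat_lit 11, nat_lit 399763803807416320), (nat_lit 18, nat_lit 69862507119902720), (nat_lit 20, nat_lit 8710285871738880), (nat_lit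 23, nat_lit 573899688000880640), (nat_lit 26, nat_lit 12849970742887972864), (nat_lit 29, nat_lit 8459926681421873152), (nat_lit 31, nat_lit 88146805669232640), (nat_lit 37, nat_lit 12978212478088380416), (nat_lit 38, nat_lit 22320110133250621440), (nat_lit 42, nat_lit 18983377302219390976), (nat_lit 47, nat_lit 9686720771457945600), (nat_lit 54, nat_lit 3728602000404357120)]), (FastCell.sprN 59 [(nat_lit 5, nat_lit 60813153787648671744), (nat_lit 7, nat_lit 54052767185187635200), (nat_lit 11, nat_lit 2043559339024711680), (nat_lit 19, nat_lit 18748281185183465472)], FastCell.sprN 59 [(nat_lit 6, nat_lit 114864126351890186240), (nat_lit 26, nat_lit 4768305124390993920), (nat_lit 27, nat_lit 87102941785227264), (nat_lit 33, nat_lit 12628013237900673024), (nat_lit 41, nat_lit 15263976356279484416), (nat_lit 48, nat_lit 96867300094435655680), (nat_lit 55, nat_lit 37286055562797121536)], FastCell.sprN 59 [(nat_lit 5, nat_lit 60813153787648671744), (nat_lit 6, nat_lit 114864126351890186240), (nat_lit 7, nat_lit 54052767185187635200), (nat_lit 11,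 nat_lit 2043559339024711680), (nat_lit 19, nat_lit 18748281185183465472), (nat_lit 26, nat_lit 4768305124390993920), (nat_lit 27, nat_lit 87102941785227264), (nat_lit 33, nat_lit 12628013237900673024), (nat_lit 41, nat_lit 15263976356279484416), (nat_lit 48, nat_lit 96867300094435655680), (nat_lit 55, nat_lit 37286055562797121536)]), (FastCell.sprN 59 [(nat_lit 6, nat_lit 66939030206305796096), (nat_lit 9, nat_lit 2555546429208657920), (nat_lit 10, nat_lit 1281837567926337536), (nat_lit 11, nat_lit 111917203318124838912), (nat_lit 22, nat_lit 353876652722686525440), (nat_lit 23, nat_lit 116798366543312322560), (nat_lit 24, nat_lit 1623919480985878528), (nat_lit 29, nat_lit 357170846248776761344), (nat_lit 31, nat_lit 1459838792021485551616), (nat_lit 32, nat_lit 43551470892613632), (nat_lit 49, nat_lit 48433650047217827840), (nat_lit 56, nat_lit 18643027781398560768)], FastCell.sprN 59 [(nat_lit 8, nat_lit 70775330544537305088), (nat_lit 14, nat_lit 97410230795120934912), (nat_lit 15, nat_lit 938786323697762304), (nat_lit 17, nat_lit 439471093715285573632),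 (nat_lit 19, nat_lit 234286605722070286336), (nat_lit 26, nat_lit 268397129427689930752), (nat_lit 30, nat_lit 1440541033329852416), (nat_lit 34, nat_lit 379594691265765048320), (nat_lit 40, nat_lit 1036146567029603696640)], FastCell.sprN 59 [(nat_lit 6, nat_lit 66939030206305796096), (nat_lit 8, nat_lit 70775330544537305088), (nat_lit 9, nat_lit 2555546429208657920), (nat_lit 10, nat_lit 1281837567926337536), (nat_lit 11, nat_lit 111917203318124838912), (nat_lit 14, nat_lit 97410230795120934912), (nat_lit 15, nat_lit 938786323697762304), (nat_lit 17, nat_lit 439471093715285573632), (nat_lit 19, nat_lit 234286605722070286336), (nat_lit 22, nat_lit 353876652722686525440), (nat_lit 23, nat_lit 116798366543312322560), (nat_lit 24, nat_lit 1623919480985878528), (nat_lit 26, nat_lit 268397129427689930752), (nat_lit 29, nat_lit 357170846248776761344), (nat_lit 30, nat_lit 1440541033329852416), (nat_lit 31, nat_lit 1459838792021485551616), (nat_lit 32, nat_lit 43551470892613632), (nat_lit 34, nat_lit 379594691265765048320), (nat_lit 40, nat_lit 1036146567029603696640),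 (nat_lit 49, nat_lit 48433650047217827840), (nat_lit 56, nat_lit 18643027781398560768)]), (FastCell.sprN 59 [(nat_lit 6, nat_lit 498014499639394304), (nat_lit 19, nat_lit 22256086496730677248), (nat_lit 26, nat_lit 24322902164540227584)], FastCell.sprN 59 [(nat_lit 11, nat_lit 10424100927660097536), (nat_lit 33, nat_lit 53998058802304253952)], FastCell.sprN 59 [(nat_lit 6, nat_lit 498014499639394304), (nat_lit 11, nat_lit 10424100927660097536), (nat_lit 19, nat_lit 22256086496730677248), (nat_lit 26, nat_lit 24322902164540227584), (nat_lit 33, nat_lit 53998058802304253952)]), z59, (FastCell.sprN 59 [(nat_lit 6, nat_lit 3240836503126933504), (nat_lit 12, nat_lit 562470291473694720), (nat_lit 28, nat_lit 3241217324992167936)], FastCell.sprN 59 [(nat_lit 2, nat_lit 234696580924440576), (nat_lit 9, nat_lit 3204593919815843840), (nat_lit 19, nat_lit 2841859091725287424)], FastCell.sprN 59 [(nat_lit 2, nat_lit 234696580924440576), (nat_lit 6, nat_lit 3240836503126933504), (nat_lit 9, nat_lit 3204593919815843840), (nat_lit 12, nat_lit 562470291473694720),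 (nat_lit 19, nat_lit 2841859091725287424), (nat_lit 28, nat_lit 3241217324992167936)]), z59⟩,
  ⟨(FastCell.sprN 59 [(nat_lit 11, nat_lit 1347924707525001216), (nat_lit 18, nat_lit 8710285871738880), (nat_lit 32, nat_lit 8710285871738880), (nat_lit 46, nat_lit 9686720771457945600), (nat_lit 49, nat_lit 9686720771457945600), (nat_lit 53, nat_lit 3728602000404357120), (nat_lit 56, nat_lit 3728602000404357120)], FastCell.sprN 59 [(nat_lit 17, nat_lit 681186446341570560), (nat_lit 26, nat_lit 2328202058127114240), (nat_lit 37, nat_lit 1387634214207225856)], FastCell.sprN 59 [(nat_lit 11, nat_lit 1347924707525001216), (nat_lit 17, nat_lit 681186446341570560), (nat_lit 18, nat_lit 8710285871738880), (nat_lit 26, nat_lit 2328202058127114240), (nat_lit 32, nat_lit 8710285871738880), (nat_lit 37, nat_lit 1387634214207225856), (nat_lit 46, nat_lit 9686720771457945600), (nat_lit 49, nat_lit 9686720771457945600), (nat_lit 53, nat_lit 3728602000404357120), (nat_lit 56, nat_lit 3728602000404357120)]), (FastCell.sprN 59 [(nat_lit 13, nat_lit 70775330544537305088),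 (nat_lit 21, nat_lit 64940153863413956608), (nat_lit 25, nat_lit 219735546857642786816), (nat_lit 36, nat_lit 87102941785227264), (nat_lit 50, nat_lit 96867300094435655680), (nat_lit 57, nat_lit 37286055562797121536)], FastCell.sprN 59 [(nat_lit 11, nat_lit 66939030206305796096), (nat_lit 17, nat_lit 82905169852538814464), (nat_lit 29, nat_lit 58399183271656161280), (nat_lit 35, nat_lit 230254792673245265920)], FastCell.sprN 59 [(nat_lit 11, nat_lit 66939030206305796096), (nat_lit 13, nat_lit 70775330544537305088), (nat_lit 17, nat_lit 82905169852538814464), (nat_lit 21, nat_lit 64940153863413956608), (nat_lit 25, nat_lit 219735546857642786816), (nat_lit 29, nat_lit 58399183271656161280), (nat_lit 35, nat_lit 230254792673245265920), (nat_lit 36, nat_lit 87102941785227264), (nat_lit 50, nat_lit 96867300094435655680), (nat_lit 57, nat_lit 37286055562797121536)]), (FastCell.sprN 59 [(nat_lit 17, nat_lit 10424100927660097536), (nat_lit 32, nat_lit 43551470892613632), (nat_lit 49, nat_lit 48433650047217827840), (nat_lit 56, nat_lit 18643027781398560768)],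 FastCell.sprN 59 [(nat_lit 11, nat_lit 3857159614629937152), (nat_lit 26, nat_lit 17999352934101417984)], FastCell.sprN 59 [(nat_lit 11, nat_lit 3857159614629937152), (nat_lit 17, nat_lit 10424100927660097536), (nat_lit 26, nat_lit 17999352934101417984), (nat_lit 32, nat_lit 43551470892613632), (nat_lit 49, nat_lit 48433650047217827840), (nat_lit 56, nat_lit 18643027781398560768)]), z59, (FastCell.sprN 59 [(nat_lit 6, nat_lit 234696580924440576), (nat_lit 19, nat_lit 360135258332463104)], FastCell.sprN 59 [(nat_lit 1, nat_lit 638886607302164480), (nat_lit 3, nat_lit 320459391981584384), (nat_lit 11, nat_lit 405979870246469632)], FastCell.sprN 59 [(nat_lit 1, nat_lit 638886607302164480), (nat_lit 3, nat_lit 320459391981584384), (nat_lit 6, nat_lit 234696580924440576), (nat_lit 11, nat_lit 405979870246469632), (nat_lit 19, nat_lit 360135258332463104)]), z59, z59⟩⟩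

theorem eFsn : vfam B 3 s sn = some Fsn := by decide +kernel

theorem fitsn : famFits 162 59 4722366482869645213696 47220265384565300831338 337680392383609994192544018 Fsn = true := by decide +kernel

/-- Data. -/
noncomputable def Fsp : VFam := ⟨⟨(FastCell.sprN 59 [(nat_lit 11, nat_lit 4611686018427387904), (nat_lit 49, nat_lit 45022535149689733120), (nat_lit 51, nat_lit 37518785254858424320)], FastCell.sprN 59 [(nat_lit 25, nat_lit 3110137865170845696)], FastCell.sprN 59 [(nat_lit 11, nat_lit 4611686018427387904), (nat_lit 25, nat_lit 3110137865170845696), (nat_lit 49, nat_lit 45022535149689733120), (nat_lit 51, nat_lit 37518785254858424320)]), (FastCell.sprN 59 [(nat_lit 50, nat_lit 75037570509716848640)], FastCell.sprN 59 [(nat_lit 17, nat_lit 6220275730341691392)], FastCell.sprN 59 [(nat_lit 17, nat_lit 6220275730341691392), (nat_lit 50, nat_lit 75037570509716848640)]), (FastCell.sprN 59 [(nat_lit 37, nat_lit 429453079847370752), (nat_lit 44, nat_lit 205508621739382276096), (nat_lit 49, nat_lit 37518785254858424320)], FastCell.sprN 59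 [(nat_lit 11, nat_lit 3110137865170845696)], FastCell.sprN 59 [(nat_lit 11, nat_lit 3110137865170845696), (nat_lit 37, nat_lit 429453079847370752), (nat_lit 44, nat_lit 205508621739382276096), (nat_lit 49, nat_lit 37518785254858424320)]), z59, z59, z59, z59⟩,
  ⟨(FastCell.sprN 59 [(nat_lit 11, nat_lit 3263761310902386688), (nat_lit 17, nat_lit 681186446341570560), (nat_lit 26, nat_lit 2328202058127114240), (nat_lit 37, nat_lit 1387634214207225856), (nat_lit 45, nat_lit 37518785254858424320)], FastCell.sprN 59 [(nat_lit 25, nat_lit 3110137865170845696), (nat_lit 46, nat_lit 45022535149689733120)], FastCell.sprN 59 [(nat_lit 11, nat_lit 3263761310902386688), (nat_lit 17, nat_lit 681186446341570560), (nat_lit 25, nat_lit 3110137865170845696), (nat_lit 26, nat_lit 2328202058127114240), (nat_lit 37, nat_lit 1387634214207225856), (nat_lit 45, nat_lit 37518785254858424320), (nat_lit 46, nat_lit 45022535149689733120)]), (FastCell.sprN 59 [(nat_lit 11, nat_lit 66939030206305796096), (nat_lit 17, nat_lit 76684894122197123072), (nat_lit 29, nat_lit 58399183271656161280),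 (nat_lit 35, nat_lit 230254792673245265920)], FastCell.sprN 59 [(nat_lit 13, nat_lit 70775330544537305088), (nat_lit 21, nat_lit 64940153863413956608), (nat_lit 25, nat_lit 219735546857642786816)], FastCell.sprN 59 [(nat_lit 11, nat_lit 66939030206305796096), (nat_lit 13, nat_lit 70775330544537305088), (nat_lit 17, nat_lit 76684894122197123072), (nat_lit 21, nat_lit 64940153863413956608), (nat_lit 25, nat_lit 219735546857642786816), (nat_lit 29, nat_lit 58399183271656161280), (nat_lit 35, nat_lit 230254792673245265920)]), (FastCell.sprN 59 [(nat_lit 11, nat_lit 747021749459091456), (nat_lit 26, nat_lit 17999352934101417984)], FastCell.sprN 59 [(nat_lit 17, nat_lit 10424100927660097536)], FastCell.sprN 59 [(nat_lit 11, nat_lit 747021749459091456), (nat_lit 17, nat_lit 10424100927660097536), (nat_lit 26, nat_lit 17999352934101417984)]), z59, (FastCell.sprN 59 [(nat_lit 1, nat_lit 638886607302164480), (nat_lit 3, nat_lit 320459391981584384), (nat_lit 11, nat_lit 405979870246469632)], FastCell.sprN 59 [(nat_lit 6, nat_lit 234696580924440576), (nat_lit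 19, nat_lit 360135258332463104)], FastCell.sprN 59 [(nat_lit 1, nat_lit 638886607302164480), (nat_lit 3, nat_lit 320459391981584384), (nat_lit 6, nat_lit 234696580924440576), (nat_lit 11, nat_lit 405979870246469632), (nat_lit 19, nat_lit 360135258332463104)]), z59, z59⟩,
  ⟨(FastCell.sprN 59 [(nat_lit 11, nat_lit 399763803807416320), (nat_lit 23, nat_lit 573899688000880640), (nat_lit 29, nat_lit 8459926681421873152), (nat_lit 31, nat_lit 88146805669232640), (nat_lit 37, nat_lit 12978212478088380416), (nat_lit 38, nat_lit 22320110133250621440), (nat_lit 42, nat_lit 18983377302219390976)], FastCell.sprN 59 [(nat_lit 18, nat_lit 69862507119902720), (nat_lit 26, nat_lit 12849970742887972864), (nat_lit 47, nat_lit 7503749894831308800)], FastCell.sprN 59 [(nat_lit 11, nat_lit 399763803807416320), (nat_lit 18, nat_lit 69862507119902720), (nat_lit 23, nat_lit 573899688000880640), (nat_lit 26, nat_lit 12849970742887972864), (nat_lit 29, nat_lit 8459926681421873152), (nat_lit 31, nat_lit 88146805669232640), (nat_lit 37, nat_lit 12978212478088380416),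 (nat_lit 38, nat_lit 22320110133250621440), (nat_lit 42, nat_lit 18983377302219390976), (nat_lit 47, nat_lit 7503749894831308800)]), (FastCell.sprN 59 [(nat_lit 5, nat_lit 60813153787648671744), (nat_lit 7, nat_lit 54052767185187635200), (nat_lit 11, nat_lit 2043559339024711680), (nat_lit 19, nat_lit 18748281185183465472)], FastCell.sprN 59 [(nat_lit 6, nat_lit 114864126351890186240), (nat_lit 26, nat_lit 4768305124390993920), (nat_lit 33, nat_lit 12628013237900673024), (nat_lit 41, nat_lit 15263976356279484416), (nat_lit 48, nat_lit 75037570509716848640)], FastCell.sprN 59 [(nat_lit 5, nat_lit 60813153787648671744), (nat_lit 6, nat_lit 114864126351890186240), (nat_lit 7, nat_lit 54052767185187635200), (nat_lit 11, nat_lit 2043559339024711680), (nat_lit 19, nat_lit 18748281185183465472), (nat_lit 26, nat_lit 4768305124390993920), (nat_lit 33, nat_lit 12628013237900673024), (nat_lit 41, nat_lit 15263976356279484416), (nat_lit 48, nat_lit 75037570509716848640)]), (FastCell.sprN 59 [(nat_lit 6, nat_lit 66939030206305796096), (nat_lit 9, nat_lit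 2555546429208657920), (nat_lit 10, nat_lit 1281837567926337536), (nat_lit 11, nat_lit 111917203318124838912), (nat_lit 22, nat_lit 353876652722686525440), (nat_lit 23, nat_lit 116798366543312322560), (nat_lit 24, nat_lit 1623919480985878528), (nat_lit 29, nat_lit 357170846248776761344), (nat_lit 31, nat_lit 1459838792021485551616), (nat_lit 37, nat_lit 429453079847370752), (nat_lit 44, nat_lit 205508621739382276096), (nat_lit 49, nat_lit 37518785254858424320)], FastCell.sprN 59 [(nat_lit 8, nat_lit 70775330544537305088), (nat_lit 14, nat_lit 97410230795120934912), (nat_lit 15, nat_lit 938786323697762304), (nat_lit 17, nat_lit 439471093715285573632), (nat_lit 19, nat_lit 234286605722070286336), (nat_lit 26, nat_lit 268397129427689930752), (nat_lit 30, nat_lit 1440541033329852416), (nat_lit 32, nat_lit 429453079847370752), (nat_lit 34, nat_lit 379594691265765048320), (nat_lit 40, nat_lit 1036146567029603696640), (nat_lit 43, nat_lit 205508621739382276096)], FastCell.sprN 59 [(nat_lit 6, nat_lit 66939030206305796096), (nat_lit 8, nat_lit 70775330544537305088),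 (nat_lit 9, nat_lit 2555546429208657920), (nat_lit 10, nat_lit 1281837567926337536), (nat_lit 11, nat_lit 111917203318124838912), (nat_lit 14, nat_lit 97410230795120934912), (nat_lit 15, nat_lit 938786323697762304), (nat_lit 17, nat_lit 439471093715285573632), (nat_lit 19, nat_lit 234286605722070286336), (nat_lit 22, nat_lit 353876652722686525440), (nat_lit 23, nat_lit 116798366543312322560), (nat_lit 24, nat_lit 1623919480985878528), (nat_lit 26, nat_lit 268397129427689930752), (nat_lit 29, nat_lit 357170846248776761344), (nat_lit 30, nat_lit 1440541033329852416), (nat_lit 31, nat_lit 1459838792021485551616), (nat_lit 32, nat_lit 429453079847370752), (nat_lit 34, nat_lit 379594691265765048320), (nat_lit 37, nat_lit 429453079847370752), (nat_lit 40, nat_lit 1036146567029603696640), (nat_lit 43, nat_lit 205508621739382276096), (nat_lit 44, nat_lit 205508621739382276096), (nat_lit 49, nat_lit 37518785254858424320)]), (FastCell.sprN 59 [(nat_lit 6, nat_lit 498014499639394304), (nat_lit 19, nat_lit 22256086496730677248), (nat_lit 26, nat_lit 24322902164540227584)],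 FastCell.sprN 59 [(nat_lit 11, nat_lit 10424100927660097536), (nat_lit 33, nat_lit 53998058802304253952)], FastCell.sprN 59 [(nat_lit 6, nat_lit 498014499639394304), (nat_lit 11, nat_lit 10424100927660097536), (nat_lit 19, nat_lit 22256086496730677248), (nat_lit 26, nat_lit 24322902164540227584), (nat_lit 33, nat_lit 53998058802304253952)]), z59, (FastCell.sprN 59 [(nat_lit 6, nat_lit 3240836503126933504), (nat_lit 12, nat_lit 562470291473694720), (nat_lit 28, nat_lit 3241217324992167936)], FastCell.sprN 59 [(nat_lit 2, nat_lit 234696580924440576), (nat_lit 9, nat_lit 3204593919815843840), (nat_lit 19, nat_lit 2841859091725287424)], FastCell.sprN 59 [(nat_lit 2, nat_lit 234696580924440576), (nat_lit 6, nat_lit 3240836503126933504), (nat_lit 9, nat_lit 3204593919815843840), (nat_lit 12, nat_lit 562470291473694720), (nat_lit 19, nat_lit 2841859091725287424), (nat_lit 28, nat_lit 3241217324992167936)]), z59⟩,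
  ⟨(FastCell.sprN 59 [(nat_lit 11, nat_lit 1347924707525001216), (nat_lit 46, nat_lit 7503749894831308800), (nat_lit 49, nat_lit 7503749894831308800)], FastCell.sprN 59 [(nat_lit 17, nat_lit 681186446341570560), (nat_lit 26, nat_lit 2328202058127114240), (nat_lit 37, nat_lit 1387634214207225856)], FastCell.sprN 59 [(nat_lit 11, nat_lit 1347924707525001216), (nat_lit 17, nat_lit 681186446341570560), (nat_lit 26, nat_lit 2328202058127114240), (nat_lit 37, nat_lit 1387634214207225856), (nat_lit 46, nat_lit 7503749894831308800), (nat_lit 49, nat_lit 7503749894831308800)]), (FastCell.sprN 59 [(nat_lit 13, nat_lit 70775330544537305088), (nat_lit 21, nat_lit 64940153863413956608), (nat_lit 25, nat_lit 219735546857642786816), (nat_lit 50, nat_lit 75037570509716848640)], FastCell.sprN 59 [(nat_lit 11, nat_lit 66939030206305796096), (nat_lit 17, nat_lit 82905169852538814464), (nat_lit 29, nat_lit 58399183271656161280), (nat_lit 35, nat_lit 230254792673245265920)], FastCell.sprN 59 [(nat_lit 11, nat_lit 66939030206305796096), (nat_lit 13, nat_lit 70775330544537305088),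 (nat_lit 17, nat_lit 82905169852538814464), (nat_lit 21, nat_lit 64940153863413956608), (nat_lit 25, nat_lit 219735546857642786816), (nat_lit 29, nat_lit 58399183271656161280), (nat_lit 35, nat_lit 230254792673245265920), (nat_lit 50, nat_lit 75037570509716848640)]), (FastCell.sprN 59 [(nat_lit 17, nat_lit 10424100927660097536), (nat_lit 37, nat_lit 429453079847370752), (nat_lit 44, nat_lit 205508621739382276096), (nat_lit 49, nat_lit 37518785254858424320)], FastCell.sprN 59 [(nat_lit 11, nat_lit 3857159614629937152), (nat_lit 26, nat_lit 17999352934101417984)], FastCell.sprN 59 [(nat_lit 11, nat_lit 3857159614629937152), (nat_lit 17, nat_lit 10424100927660097536), (nat_lit 26, nat_lit 17999352934101417984), (nat_lit 37, nat_lit 429453079847370752), (nat_lit 44, nat_lit 205508621739382276096), (nat_lit 49, nat_lit 37518785254858424320)]), z59, (FastCell.sprN 59 [(nat_lit 6, nat_lit 234696580924440576), (nat_lit 19, nat_lit 360135258332463104)], FastCell.sprN 59 [(nat_lit 1, nat_lit 638886607302164480), (nat_lit 3, nat_lit 320459391981584384),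 (nat_lit 11, nat_lit 405979870246469632)], FastCell.sprN 59 [(nat_lit 1, nat_lit 638886607302164480), (nat_lit 3, nat_lit 320459391981584384), (nat_lit 6, nat_lit 234696580924440576), (nat_lit 11, nat_lit 405979870246469632), (nat_lit 19, nat_lit 360135258332463104)]), z59, z59⟩⟩

theorem eFsp : vfam B 3 s sp = some Fsp := by decide +kernel

theorem fitsp : famFits 162 59 4722366482869645213696 47220265384565300831338 337680392383609994192544018 Fsp = true := by decide +kernel


end Vale.Agent.P237.Small.N5W6
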